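import Mathlib

/-! Elementary Mertens estimates for the Jacobsthal argument (P013). -/

open Finset Real

namespace Vale.Agent.P013

/-- Sum of `log p / p` over primes below `N`. -/
noncomputable def logSum (N : ℕ) : ℝ :=
  ∑ p ∈ (range N).filter Nat.Prime, Real.log p / p

theorem log_factorial_eq (n : ℕ) :
    Real.log (n.factorial : ℝ)
      = ∑ p ∈ (range (n+1)).filter Nat.Prime, (padicValNat p n.factorial : ℝ) * Real.log p := by
  rw [Real.log_nat_eq_sum_factorization, Finsupp.sum]
  rw [Nat.support_factorization]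
  rw [Finset.sum_subset (s₁ := n.factorial.primeFactors) (s₂ := (range (n+1)).filter Nat.Prime)]
  · apply Finset.sum_congr rfl
    intro p hp
    rw [Nat.factorization_def _ (mem_filter.1 hp).2]
  · intro p hp
    rw [Nat.mem_primeFactors] at hp
    simp only [mem_filter, mem_range]
    exact ⟨Nat.lt_succ_of_le ((Nat.Prime.dvd_factorial hp.1).1 hp.2.1), hp.1⟩
  · intro p _ hp
    have : n.factorial.factorization p = 0 := by
      rwa [← Nat.support_factorization, Finsupp.notMem_support_iff] at hp
    simp [this]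

theorem sum_log_div_mul_pred_bound :
    ∃ C : ℝ, 0 ≤ C ∧ ∀ N : ℕ, ∑ p ∈ (range N).filter Nat.Prime,
      Real.log p / ((p:ℝ) * ((p:ℝ)-1)) ≤ C := by
  have hs : Summable (fun n : ℕ => 4 / (n:ℝ) ^ (3/2:ℝ)) := by
    simpa [div_eq_mul_inv] using
      (Real.summable_nat_rpow_inv.2 (by norm_num : (1:ℝ) < 3/2)).mul_left 4
  refine ⟨∑' n : ℕ, 4 / (n:ℝ) ^ (3/2:ℝ), tsum_nonneg (fun n => by positivity), fun N => ?_⟩
  refine le_trans (Finset.sum_le_sum (g := fun p : ℕ => 4 / (p:ℝ) ^ (3/2:ℝ)) ?_)
    (hs.sum_le_tsum _ (fun n _ => by positivity))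
  intro p hp
  have hp2 : (2:ℝ) ≤ p := by exact_mod_cast (mem_filter.1 hp).2.two_le
  have hl : Real.log p ≤ (p:ℝ) ^ (1/2:ℝ) / (1/2) := Real.log_le_rpow_div (by positivity) (by norm_num)
  have h1 : (p:ℝ) ^ (3/2:ℝ) * (p:ℝ) ^ (1/2:ℝ) = (p:ℝ) * p := by
    rw [← Real.rpow_add (by positivity)]; norm_num; ring
  have h32 : 0 < (p:ℝ) ^ (3/2:ℝ) := by positivity
  rw [div_le_div_iff₀ (by nlinarith) h32]
  calc Real.log p * (p:ℝ) ^ (3/2:ℝ) ≤ 2 * (p:ℝ) ^ (1/2:ℝ) * (p:ℝ) ^ (3/2:ℝ) := by
        have := mul_le_mul_of_nonneg_right hl h32.le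
        linarith
    _ = 2 * ((p:ℝ) * p) := by rw [← h1]; ring
    _ ≤ 4 * ((p:ℝ) * ((p:ℝ)-1)) := by nlinarith

theorem logSum_bound : ∃ K : ℝ, 0 ≤ K ∧ ∀ n : ℕ, 1 ≤ n →
    |logSum (n+1) - Real.log n| ≤ K := by
  obtain ⟨C, hC, hCb⟩ := sum_log_div_mul_pred_bound
  refine ⟨max (Real.log 4) (1 + C), le_max_of_le_right (by linarith), fun n hn => ?_⟩
  have hn0 : (0:ℝ) < n := by exact_mod_cast hn
  have hlf := log_factorial_eq n
  set S := (range (n+1)).filter Nat.Prime with hS
  have hSp : ∀ p ∈ S, Nat.Prime p := fun p hp => (mem_filter.1 hp).2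
  -- upper
  have hup : logSum (n+1) ≤ Real.log n + Real.log 4 := by
    have h1 : ∀ p ∈ S, (n:ℝ) * (Real.log p / p) - Real.log p ≤
        (padicValNat p n.factorial : ℝ) * Real.log p := by
      intro p hp
      have hpp := hSp p hp
      have := Fact.mk hpp
      have hv : n / p ≤ padicValNat p n.factorial := by
        rw [padicValNat_factorial (b := Nat.log p n + 2) (by omega)]
        refine le_trans ?_ (Finset.single_le_sum (f := fun i => n / p ^ i) (a := 1) (by simp)
          (by simp))
        simp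
      have hv' : ((n / p : ℕ) : ℝ) ≤ padicValNat p n.factorial := by exact_mod_cast hv
      have hf : (n:ℝ) / p - 1 ≤ ((n / p : ℕ) : ℝ) := by
        rw [← Nat.floor_div_eq_div (K := ℝ) n p]
        linarith [Nat.lt_floor_add_one ((n:ℝ)/(p:ℝ))]
      have hl : 0 ≤ Real.log p := Real.log_natCast_nonneg p
      have h3 := mul_le_mul_of_nonneg_right (hf.trans hv') hl
      calc _ = ((n:ℝ)/p - 1) * Real.log p := by ring
        _ ≤ _ := h3
    have h2 := Finset.sum_le_sum h1
    rw [← hlf, Finset.sum_sub_distrib, ← Finset.mul_sum] at h2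
    have hth : ∑ p ∈ S, Real.log p ≤ Real.log 4 * n := by
      have : ∑ p ∈ S, Real.log p = Real.log (primorial n : ℝ) := by
        rw [primorial, Nat.cast_prod, Real.log_prod]
        intro p hp
        simpa using (hSp p hp).ne_zero
      rw [this]
      calc Real.log (primorial n : ℝ) ≤ Real.log ((4:ℝ)^n) :=
            Real.log_le_log (by exact_mod_cast primorial_pos n)
              (by exact_mod_cast primorial_le_four_pow n)
        _ = _ := by rw [Real.log_pow]; ring
    have hfac : Real.log (n.factorial : ℝ) ≤ n * Real.log n := by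
      calc Real.log (n.factorial : ℝ) ≤ Real.log ((n:ℝ)^n) :=
            Real.log_le_log (by exact_mod_cast n.factorial_pos)
              (by exact_mod_cast Nat.factorial_le_pow n)
        _ = _ := by rw [Real.log_pow]
    have : (n:ℝ) * logSum (n+1) ≤ n * (Real.log n + Real.log 4) := by
      simp only [logSum]; rw [← hS]; nlinarith
    exact le_of_mul_le_mul_left this hn0
  -- lower
  have hlow : Real.log n - (1 + C) ≤ logSum (n+1) := by
    have h1 : ∀ p ∈ S, (padicValNat p n.factorial : ℝ) * Real.log p ≤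
        (n:ℝ) * (Real.log p / p) + (n:ℝ) * (Real.log p / ((p:ℝ) * ((p:ℝ)-1))) := by
      intro p hp
      have hpp := hSp p hp
      have := Fact.mk hpp
      have hp2 : (2:ℝ) ≤ p := by exact_mod_cast hpp.two_le
      have hv : (p - 1) * padicValNat p n.factorial ≤ n := by
        rw [sub_one_mul_padicValNat_factorial]; omega
      have hv' : ((p:ℝ) - 1) * padicValNat p n.factorial ≤ n := by
        have : (((p-1) * padicValNat p n.factorial : ℕ) : ℝ) ≤ n := by exact_mod_cast hv
        simpa [Nat.cast_sub hpp.one_le] using this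
      have hv'' : (padicValNat p n.factorial : ℝ) ≤ (n:ℝ) / ((p:ℝ)-1) := by
        rw [le_div_iff₀ (by linarith)]; linarith
      have h3 := mul_le_mul_of_nonneg_right hv'' (Real.log_natCast_nonneg p)
      refine h3.trans (le_of_eq ?_)
      have : (p:ℝ) - 1 ≠ 0 := by linarith
      field_simp
      ring
    have h2 := Finset.sum_le_sum h1
    rw [← hlf, Finset.sum_add_distrib, ← Finset.mul_sum, ← Finset.mul_sum] at h2
    have hst := Stirling.le_log_factorial_stirling (n := n) (by omega)
    have h3 : 0 ≤ Real.log n := Real.log_natCast_nonneg n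
    have h4 : 0 ≤ Real.log (2 * π) := Real.log_nonneg (by nlinarith [Real.pi_gt_three])
    have h5 := hCb (n+1)
    rw [← hS] at h5
    have : (n:ℝ) * (Real.log n - (1 + C)) ≤ n * logSum (n+1) := by
      simp only [logSum]; rw [← hS]; nlinarith [mul_le_mul_of_nonneg_left h5 hn0.le]
    exact le_of_mul_le_mul_left this hn0
  rw [abs_le]
  constructor
  · linarith [le_max_right (Real.log 4) (1 + C)]
  · linarith [le_max_left (Real.log 4) (1 + C)]

/-- Primes in `[u, z)`. -/
def primesIco (u z : ℕ) : Finset ℕ := (Ico u z).filter Nat.Prime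

theorem mem_primesIco {u z p : ℕ} : p ∈ primesIco u z ↔ (u ≤ p ∧ p < z) ∧ p.Prime := by
  simp [primesIco, and_assoc]

theorem mertens_interval : ∃ K : ℝ, 1 ≤ K ∧ ∀ u z : ℕ, 2 ≤ u → u ≤ z →
    (∏ p ∈ primesIco u z, (1 - 1/(p:ℝ))⁻¹
        ≤ Real.log z / Real.log u * (1 + K / Real.log u)) ∧
      ∑ p ∈ primesIco u z, Real.log p / p ≤ Real.log z - Real.log u + K := by
  obtain ⟨K0, hK0, hb⟩ := logSum_bound
  set K2 := 2 * K0 + Real.log 2 with hK2
  have hl2 : 0 < Real.log 2 := Real.log_pos (by norm_num)
  set K' := K2 + 2 with hK'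
  refine ⟨max (max 1 K2) (K' * Real.exp (K' / Real.log 2)),
    le_max_of_le_left (le_max_left _ _), fun u z hu huz => ?_⟩
  have hu0 : (0:ℝ) < u := by positivity
  have hlu : 0 < Real.log u := Real.log_pos (by exact_mod_cast hu)
  have hH : ∀ n, u ≤ n →
      ∑ p ∈ primesIco u (n+1), Real.log p / p ≤ Real.log n - Real.log u + K2 := by
    intro n hn
    have e : logSum (n+1) = logSum u + ∑ p ∈ primesIco u (n+1), Real.log p / p := by
      simp only [logSum, primesIco, Finset.sum_filter]
      rw [Finset.sum_range_add_sum_Ico _ (by omega)]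
    have h1 := (abs_le.1 (hb n (by omega))).2
    have h2 := (abs_le.1 (hb (u-1) (by omega))).1
    rw [Nat.sub_add_cancel (by omega : 1 ≤ u)] at h2
    have h3 : Real.log u ≤ Real.log ((u-1:ℕ):ℝ) + Real.log 2 := by
      have : (0:ℝ) < ((u-1:ℕ):ℝ) := by exact_mod_cast (by omega : 0 < u - 1)
      rw [← Real.log_mul this.ne' (by norm_num)]
      refine Real.log_le_log hu0 ?_
      exact_mod_cast (by omega : u ≤ (u-1) * 2)
    linarith
  -- main induction
  have key : ∀ n, u ≤ n →
      (∑ p ∈ primesIco u n, 1/(p:ℝ)) - (∑ p ∈ primesIco u n, Real.log p / p) / Real.log n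
        ≤ Real.log (Real.log n) - Real.log (Real.log u)
          + (K2 - Real.log u) * (1 / Real.log u - 1 / Real.log n)
      ∧ ∑ p ∈ primesIco u n, 1/((p:ℝ) * ((p:ℝ)-1)) ≤ 1/((u:ℝ)-1) - 1/((n:ℝ)-1) := by
    intro n hn
    induction n, hn using Nat.le_induction with
    | base => simp [primesIco]
    | succ n hn ih =>
      obtain ⟨ih1, ih2⟩ := ih
      have hn2 : (2:ℝ) ≤ n := by exact_mod_cast le_trans hu hn
      have hln : 0 < Real.log n := Real.log_pos (by linarith)
      have hln1 : 0 < Real.log ((n:ℝ)+1) := Real.log_pos (by linarith)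
      have hmono : Real.log n ≤ Real.log ((n:ℝ)+1) := Real.log_le_log (by linarith) (by linarith)
      have hsplit : ∀ f : ℕ → ℝ, ∑ p ∈ primesIco u (n+1), f p
          = (∑ p ∈ primesIco u n, f p) + if n.Prime then f n else 0 := by
        intro f
        simp only [primesIco, Finset.sum_filter]
        rw [Finset.sum_Ico_succ_top hn]
      push_cast
      constructor
      · have hH' := hH n hn
        rw [hsplit (fun p => Real.log p / p)] at hH'
        rw [hsplit, hsplit]
        set S := ∑ p ∈ primesIco u n, 1/(p:ℝ)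
        set H := ∑ p ∈ primesIco u n, Real.log p / p
        set a : ℝ := if n.Prime then Real.log n / n else 0 with ha
        have e1 : (if n.Prime then 1/(n:ℝ) else 0) = a / Real.log n := by
          by_cases h : n.Prime
          · simp only [ha, h, if_true]; field_simp
          · simp [ha, h]
        rw [e1]
        have hd : 0 ≤ 1/Real.log n - 1/Real.log ((n:ℝ)+1) :=
          sub_nonneg.2 (one_div_le_one_div_of_le hln hmono)
        have hm := mul_le_mul_of_nonneg_right hH' hd
        have hll : 1 - Real.log n / Real.log ((n:ℝ)+1)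
            ≤ Real.log (Real.log ((n:ℝ)+1)) - Real.log (Real.log n) := by
          rw [← Real.log_div hln1.ne' hln.ne']
          have := Real.one_sub_inv_le_log_of_pos (div_pos hln1 hln)
          rwa [inv_div] at this
        have e2 : S + a / Real.log n - (H + a) / Real.log ((n:ℝ)+1)
            = (S - H / Real.log n) + (H + a) * (1/Real.log n - 1/Real.log ((n:ℝ)+1)) := by
          field_simp
          ring
        have e3 : (Real.log n - Real.log u + K2) * (1/Real.log n - 1/Real.log ((n:ℝ)+1))
            = (1 - Real.log n / Real.log ((n:ℝ)+1))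
              + (K2 - Real.log u) * (1/Real.log n - 1/Real.log ((n:ℝ)+1)) := by
          field_simp
          ring
        rw [e2]
        rw [e3] at hm
        linarith
      · rw [hsplit]
        have h1 : (if n.Prime then 1/((n:ℝ) * ((n:ℝ)-1)) else 0) ≤ 1/((n:ℝ) * ((n:ℝ)-1)) := by
          split_ifs
          · exact le_rfl
          · have : 0 < (n:ℝ) * ((n:ℝ)-1) := by nlinarith
            positivity
        have e : 1/((n:ℝ) * ((n:ℝ)-1)) = 1/((n:ℝ)-1) - 1/((n:ℝ)+1-1) := by
          have : (n:ℝ) - 1 ≠ 0 := by linarith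
          have : (n:ℝ) ≠ 0 := by linarith
          rw [add_sub_cancel_right]
          field_simp
          ring
        linarith
  have hz2 : (2:ℝ) ≤ z := by exact_mod_cast le_trans hu huz
  have hlz : 0 < Real.log z := Real.log_pos (by linarith)
  have hsum : ∑ p ∈ primesIco u z, Real.log p / p ≤ Real.log z - Real.log u + K2 := by
    refine le_trans (Finset.sum_le_sum_of_subset_of_nonneg ?_ ?_) (hH z huz)
    · intro p hp
      rw [mem_primesIco] at *
      exact ⟨⟨hp.1.1, hp.1.2.trans (Nat.lt_succ_self z)⟩, hp.2⟩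
    · intro p _ _
      exact div_nonneg (Real.log_natCast_nonneg p) (by positivity)
  have hKK : K2 ≤ max (max 1 K2) (K' * Real.exp (K' / Real.log 2)) :=
    le_max_of_le_left (le_max_right _ _)
  refine ⟨?_, le_trans hsum (by linarith)⟩
  obtain ⟨k1, k2⟩ := key z huz
  have hS : ∑ p ∈ primesIco u z, 1/((p:ℝ)-1)
      ≤ Real.log (Real.log z / Real.log u) + K' / Real.log u := by
    have e : ∑ p ∈ primesIco u z, 1/((p:ℝ)-1)
        = (∑ p ∈ primesIco u z, 1/(p:ℝ)) + ∑ p ∈ primesIco u z, 1/((p:ℝ) * ((p:ℝ)-1)) := by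
      rw [← Finset.sum_add_distrib]
      refine Finset.sum_congr rfl (fun p hp => ?_)
      have h2 : (2:ℝ) ≤ p := by exact_mod_cast (mem_primesIco.1 hp).2.two_le
      have : (p:ℝ) - 1 ≠ 0 := by linarith
      field_simp
      ring
    have h1 : 1/((u:ℝ)-1) ≤ 2 / Real.log u := by
      have h2 : (2:ℝ) ≤ u := by exact_mod_cast hu
      rw [div_le_div_iff₀ (by linarith) hlu]
      linarith [Real.log_le_sub_one_of_pos hu0]
    have h0 : 0 ≤ 1/((z:ℝ)-1) := by
      have : 0 < (z:ℝ) - 1 := by linarith
      positivity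
    have h3 : (∑ p ∈ primesIco u z, Real.log p / p) / Real.log z
        ≤ (Real.log z - Real.log u + K2) / Real.log z := div_le_div_of_nonneg_right hsum hlz.le
    have e4 : (K2 - Real.log u) * (1 / Real.log u - 1 / Real.log z)
        + (Real.log z - Real.log u + K2) / Real.log z = K2 / Real.log u := by
      field_simp
      ring
    rw [e, Real.log_div hlz.ne' hlu.ne', hK', add_div]
    linarith
  calc ∏ p ∈ primesIco u z, (1 - 1/(p:ℝ))⁻¹
      ≤ ∏ p ∈ primesIco u z, Real.exp (1/((p:ℝ)-1)) := by
        refine Finset.prod_le_prod (fun p hp => ?_) (fun p hp => ?_)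
        · have h2 : (2:ℝ) ≤ p := by exact_mod_cast (mem_primesIco.1 hp).2.two_le
          have : 1/(p:ℝ) ≤ 1 := by rw [div_le_one (by linarith)]; linarith
          exact inv_nonneg.2 (by linarith)
        · have h2 : (2:ℝ) ≤ p := by exact_mod_cast (mem_primesIco.1 hp).2.two_le
          have h1 : (p:ℝ) - 1 ≠ 0 := by linarith
          have e : (1 - 1/(p:ℝ))⁻¹ = 1/((p:ℝ)-1) + 1 := by field_simp; ring
          rw [e]; exact Real.add_one_le_exp _
    _ = Real.exp (∑ p ∈ primesIco u z, 1/((p:ℝ)-1)) := (Real.exp_sum _ _).symm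
    _ ≤ Real.exp (Real.log (Real.log z / Real.log u) + K' / Real.log u) := Real.exp_le_exp.2 hS
    _ = Real.log z / Real.log u * Real.exp (K' / Real.log u) := by
        rw [Real.exp_add, Real.exp_log (div_pos hlz hlu)]
    _ ≤ _ := by
        refine mul_le_mul_of_nonneg_left ?_ (div_pos hlz hlu).le
        have hK'0 : 0 ≤ K' := by rw [hK', hK2]; positivity
        set x := K' / Real.log u with hx
        have hx0 : 0 ≤ x := div_nonneg hK'0 hlu.le
        have h1 : Real.exp x ≤ 1 + x * Real.exp x := by
          have h := Real.add_one_le_exp (-x)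
          have hm := mul_le_mul_of_nonneg_left h (Real.exp_pos x).le
          rw [← Real.exp_add, add_neg_cancel, Real.exp_zero] at hm
          nlinarith
        have h2 : Real.exp x ≤ Real.exp (K' / Real.log 2) := by
          refine Real.exp_le_exp.2 (div_le_div_of_nonneg_left hK'0 hl2 ?_)
          exact Real.log_le_log (by norm_num) (by exact_mod_cast hu)
        have h3 : x * Real.exp x ≤ (K' * Real.exp (K' / Real.log 2)) / Real.log u := by
          calc x * Real.exp x ≤ x * Real.exp (K' / Real.log 2) := mul_le_mul_of_nonneg_left h2 hx0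
            _ = _ := by rw [hx]; ring
        have h4 := div_le_div_of_nonneg_right
          (le_max_right (max 1 K2) (K' * Real.exp (K' / Real.log 2))) hlu.le
        linarith

end Vale.Agent.P013
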