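import Mathlib

/-! Summation by parts bound used in the sieve induction (P013). -/

open Finset

namespace Vale.Agent.P013

theorem weighted_sum_le {S : Finset ℕ} {w X : ℕ → ℝ} {Φ M J : ℝ → ℝ} {a T : ℝ}
    (hw : ∀ i ∈ S, 0 ≤ w i) (hX : ∀ i ∈ S, a ≤ X i) (hXT : ∀ i ∈ S, X i ≤ T) (haT : a ≤ T)
    (hW : ∀ i ∈ S, ∑ j ∈ S.filter (fun j => X j ≤ X i), w j ≤ M (X i))
    (hΦ : Antitone Φ) (hΦ0 : ∀ x, 0 ≤ Φ x) (hM : MonotoneOn M (Set.Ici a)) (hMa : 0 ≤ M a)
    (hJa : M a * Φ a ≤ J a)
    (hJ : ∀ x y, a ≤ x → x ≤ y → (M y - M x) * Φ y ≤ J y - J x) :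
    ∑ i ∈ S, w i * Φ (X i) ≤ J T := by
  have key : ∀ s : Finset ℕ, (∀ i ∈ s, 0 ≤ w i) → (∀ i ∈ s, a ≤ X i) →
      (∀ i ∈ s, ∑ j ∈ s.filter (fun j => X j ≤ X i), w j ≤ M (X i)) →
      ∀ t, a ≤ t → (∀ i ∈ s, X i ≤ t) →
        ∑ i ∈ s, w i * Φ (X i) + (M t - ∑ i ∈ s, w i) * Φ t ≤ J t := by
    intro s
    induction s using Finset.induction_on_max_value X with
    | empty =>
      intro _ _ _ t ht _
      simp only [sum_empty, zero_add, sub_zero]
      have h1 := hJ a t le_rfl ht
      have h2 := mul_le_mul_of_nonneg_left (hΦ ht) hMa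
      nlinarith
    | insert b s hb hmax ih =>
      intro hw' hX' hW' t ht hst
      have hab : a ≤ X b := hX' b (mem_insert_self _ _)
      have hbt : X b ≤ t := hst b (mem_insert_self _ _)
      have hs := ih (fun i hi => hw' i (mem_insert_of_mem hi))
        (fun i hi => hX' i (mem_insert_of_mem hi))
        (fun i hi => le_trans (Finset.sum_le_sum_of_subset_of_nonneg
          (Finset.filter_subset_filter _ (subset_insert _ _))
          (fun j hj _ => hw' j (mem_filter.1 hj).1)) (hW' i (mem_insert_of_mem hi)))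
        (X b) hab hmax
      have htot : w b + ∑ i ∈ s, w i ≤ M (X b) := by
        have h := hW' b (mem_insert_self _ _)
        rw [Finset.filter_true_of_mem, Finset.sum_insert hb] at h
        · exact h
        · intro j hj
          rcases mem_insert.1 hj with rfl | hj
          · exact le_rfl
          · exact hmax j hj
      rw [Finset.sum_insert hb, Finset.sum_insert hb]
      have h1 := hJ (X b) t hab hbt
      have h2 : 0 ≤ (M (X b) - (w b + ∑ i ∈ s, w i)) * (Φ (X b) - Φ t) :=
        mul_nonneg (by linarith) (by linarith [hΦ hbt])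
      nlinarith
  have h := key S hw hX hW T haT hXT
  have hle : ∑ i ∈ S, w i ≤ M T := by
    rcases S.eq_empty_or_nonempty with rfl | hne
    · simp only [sum_empty]
      exact hMa.trans (hM Set.self_mem_Ici haT haT)
    · obtain ⟨b, hb, hmax⟩ := S.exists_max_image X hne
      have h' := hW b hb
      rw [Finset.filter_true_of_mem hmax] at h'
      exact h'.trans (hM (hX b hb) haT (hXT b hb))
  have : 0 ≤ (M T - ∑ i ∈ S, w i) * Φ T := mul_nonneg (by linarith) (hΦ0 T)
  linarith

end Vale.Agent.P013
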