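import Vale.Agent.P013.Mertens

/-! Counting identities for sifting an interval by a finite set of primes (P013). -/

open Finset Real

namespace Vale.Agent.P013

/-- Product of `1 - 1/p` over `p ∈ P` below `z`. -/
noncomputable def Vp (P : Finset ℕ) (z : ℕ) : ℝ :=
  ∏ p ∈ P.filter (· < z), (1 - 1/(p:ℝ))

/-- Primes in `[u, z)` that are not in `P`. -/
def miss (P : Finset ℕ) (u z : ℕ) : Finset ℕ := (primesIco u z).filter (· ∉ P)

/-- `log p / p` summed over the primes below `z` missing from `P`. -/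
noncomputable def deficit (P : Finset ℕ) (z : ℕ) : ℝ :=
  ∑ p ∈ miss P 0 z, Real.log p / p

/-- Number of multiples of `m` in `[a, a + y)` free of primes of `P` below `z`. -/
noncomputable def siftCount (P : Finset ℕ) (a : ℤ) (y m z : ℕ) : ℕ :=
  ((Finset.Ico a (a + y)).filter
    (fun n : ℤ => (m:ℤ) ∣ n ∧ ∀ p ∈ P, p < z → ¬ (p:ℤ) ∣ n)).card

/-- Number of positive integers up to `X` all whose prime factors are below `z`. -/
noncomputable def smoothCount (X : ℝ) (z : ℕ) : ℕ :=
  ((Finset.Icc 1 ⌊X⌋₊).filter (fun d => ∀ q ∈ d.primeFactors, q < z)).card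

variable {P : Finset ℕ}

theorem filter_lt_succ (z : ℕ) :
    P.filter (· < z + 1) = if z ∈ P then insert z (P.filter (· < z)) else P.filter (· < z) := by
  split_ifs with h
  · ext x
    simp only [mem_filter, mem_insert]
    constructor
    · rintro ⟨hx, hxz⟩
      rcases Nat.lt_succ_iff_lt_or_eq.1 hxz with h' | h'
      · exact Or.inr ⟨hx, h'⟩
      · exact Or.inl h'
    · rintro (rfl | ⟨hx, hxz⟩)
      · exact ⟨h, Nat.lt_succ_self _⟩
      · exact ⟨hx, hxz.trans (Nat.lt_succ_self _)⟩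
  · ext x
    simp only [mem_filter]
    constructor
    · rintro ⟨hx, hxz⟩
      rcases Nat.lt_succ_iff_lt_or_eq.1 hxz with h' | h'
      · exact ⟨hx, h'⟩
      · exact absurd (h' ▸ hx) h
    · rintro ⟨hx, hxz⟩
      exact ⟨hx, hxz.trans (Nat.lt_succ_self _)⟩

theorem Vp_zero : Vp P 0 = 1 := by simp [Vp]

theorem Vp_succ (z : ℕ) :
    Vp P (z+1) = if z ∈ P then (1 - 1/(z:ℝ)) * Vp P z else Vp P z := by
  unfold Vp
  rw [filter_lt_succ]
  split_ifs with h
  · rw [Finset.prod_insert (by simp)]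
  · rfl

theorem one_sub_inv_pos {p : ℕ} (hp : p.Prime) : 0 < 1 - 1/(p:ℝ) := by
  have h2 : (2:ℝ) ≤ p := by exact_mod_cast hp.two_le
  have : 1/(p:ℝ) ≤ 1/2 := one_div_le_one_div_of_le (by norm_num) h2
  linarith

theorem Vp_pos (hP : ∀ p ∈ P, p.Prime) (z : ℕ) : 0 < Vp P z :=
  Finset.prod_pos (fun p hp => one_sub_inv_pos (hP p (mem_filter.1 hp).1))

theorem Vp_le_one (hP : ∀ p ∈ P, p.Prime) (z : ℕ) : Vp P z ≤ 1 :=
  Finset.prod_le_one (fun p hp => (one_sub_inv_pos (hP p (mem_filter.1 hp).1)).le)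
    (fun p hp => by
      have : 0 ≤ 1/(p:ℝ) := by positivity
      linarith)

theorem Vp_sum_identity {a z : ℕ} (h : a ≤ z) :
    ∑ p ∈ P.filter (fun p => a ≤ p ∧ p < z), Vp P p / p = Vp P a - Vp P z := by
  induction z, h using Nat.le_induction with
  | base =>
    rw [Finset.filter_eq_empty_iff.2 (by intro x _; omega)]
    simp
  | succ z hz ih =>
    by_cases hzP : z ∈ P
    · have e : P.filter (fun p => a ≤ p ∧ p < z + 1)
          = insert z (P.filter (fun p => a ≤ p ∧ p < z)) := by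
        ext x
        simp only [mem_filter, mem_insert]
        constructor
        · rintro ⟨hx, h1, h2⟩
          by_cases hxz : x = z
          · exact Or.inl hxz
          · exact Or.inr ⟨hx, h1, by omega⟩
        · rintro (rfl | ⟨hx, h1, h2⟩)
          · exact ⟨hzP, hz, by omega⟩
          · exact ⟨hx, h1, by omega⟩
      rw [e, Finset.sum_insert (by simp), ih, Vp_succ, if_pos hzP]
      ring
    · have e : P.filter (fun p => a ≤ p ∧ p < z + 1) = P.filter (fun p => a ≤ p ∧ p < z) := by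
        refine Finset.filter_congr (fun x hx => ?_)
        have : x ≠ z := fun h => hzP (h ▸ hx)
        omega
      rw [e, ih, Vp_succ, if_neg hzP]

theorem deficit_nonneg (z : ℕ) : 0 ≤ deficit P z :=
  Finset.sum_nonneg (fun p _ => div_nonneg (Real.log_natCast_nonneg p) (by positivity))

theorem deficit_split {u z : ℕ} (h : u ≤ z) :
    deficit P z = deficit P u + ∑ g ∈ miss P u z, Real.log g / g := by
  unfold deficit
  rw [← Finset.sum_union]
  · congr 1
    ext x
    simp only [miss, primesIco, mem_union, mem_filter, mem_Ico]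
    constructor
    · rintro ⟨⟨⟨_, h2⟩, h3⟩, h4⟩
      rcases lt_or_ge x u with h' | h'
      · exact Or.inl ⟨⟨⟨Nat.zero_le _, h'⟩, h3⟩, h4⟩
      · exact Or.inr ⟨⟨⟨h', h2⟩, h3⟩, h4⟩
    · rintro (⟨⟨⟨_, h2⟩, h3⟩, h4⟩ | ⟨⟨⟨_, h2⟩, h3⟩, h4⟩)
      · exact ⟨⟨⟨Nat.zero_le _, by omega⟩, h3⟩, h4⟩
      · exact ⟨⟨⟨Nat.zero_le _, h2⟩, h3⟩, h4⟩
  · refine Finset.disjoint_left.2 (fun x hx hx' => ?_)
    simp only [miss, primesIco, mem_filter, mem_Ico] at hx hx'
    omega

theorem Vp_ratio (hP : ∀ p ∈ P, p.Prime) {a z : ℕ} (h : a ≤ z) :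
    Vp P a / Vp P z = ∏ p ∈ P.filter (fun p => a ≤ p ∧ p < z), (1 - 1/(p:ℝ))⁻¹ := by
  have e : Vp P z = Vp P a * ∏ p ∈ P.filter (fun p => a ≤ p ∧ p < z), (1 - 1/(p:ℝ)) := by
    unfold Vp
    rw [← Finset.prod_union]
    · congr 1
      ext x
      simp only [mem_union, mem_filter]
      constructor
      · rintro ⟨hx, h2⟩
        rcases lt_or_ge x a with h' | h'
        · exact Or.inl ⟨hx, h'⟩
        · exact Or.inr ⟨hx, h', h2⟩
      · rintro (⟨hx, h'⟩ | ⟨hx, _, h2⟩)
        · exact ⟨hx, by omega⟩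
        · exact ⟨hx, h2⟩
    · refine Finset.disjoint_left.2 (fun x hx hx' => ?_)
      simp only [mem_filter] at hx hx'
      omega
  rw [e, Finset.prod_inv_distrib, div_mul_eq_div_div, div_self (Vp_pos hP a).ne', one_div]

theorem Vp_ratio_le (hP : ∀ p ∈ P, p.Prime) {K : ℝ}
    (hK : ∀ u z : ℕ, 2 ≤ u → u ≤ z →
      ∏ p ∈ primesIco u z, (1 - 1/(p:ℝ))⁻¹ ≤ Real.log z / Real.log u * (1 + K / Real.log u))
    {a z : ℕ} (ha : 2 ≤ a) (h : a ≤ z) :
    Vp P a / Vp P z ≤ Real.log z / Real.log a * (1 + K / Real.log a)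
      * Real.exp (-(∑ g ∈ miss P a z, 1/(g:ℝ))) := by
  have hsplit : primesIco a z = P.filter (fun p => a ≤ p ∧ p < z) ∪ miss P a z := by
    ext x
    simp only [miss, primesIco, mem_union, mem_filter, mem_Ico]
    constructor
    · intro hx
      by_cases hxP : x ∈ P
      · exact Or.inl ⟨hxP, hx.1⟩
      · exact Or.inr ⟨hx, hxP⟩
    · rintro (⟨hx, h'⟩ | ⟨hx, _⟩)
      · exact ⟨h', hP x hx⟩
      · exact hx
  have hdis : Disjoint (P.filter (fun p => a ≤ p ∧ p < z)) (miss P a z) := by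
    refine Finset.disjoint_left.2 (fun x hx hx' => ?_)
    simp only [miss, mem_filter] at hx hx'
    exact hx'.2 hx.1
  have hfull := hK a z ha h
  rw [hsplit, Finset.prod_union hdis, ← Vp_ratio hP h] at hfull
  have hexp : Real.exp (∑ g ∈ miss P a z, 1/(g:ℝ)) ≤ ∏ g ∈ miss P a z, (1 - 1/(g:ℝ))⁻¹ := by
    rw [Real.exp_sum]
    refine Finset.prod_le_prod (fun g _ => (Real.exp_pos _).le) (fun g hg => ?_)
    have hg' : g.Prime := (mem_primesIco.1 (mem_filter.1 hg).1).2
    have hpos := one_sub_inv_pos hg'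
    rw [le_inv_comm₀ (Real.exp_pos _) hpos, ← Real.exp_neg]
    linarith [Real.add_one_le_exp (-(1/(g:ℝ)))]
  have hpos : 0 ≤ Vp P a / Vp P z := (div_pos (Vp_pos hP a) (Vp_pos hP z)).le
  have h2 := (mul_le_mul_of_nonneg_left hexp hpos).trans hfull
  rw [Real.exp_neg, ← div_eq_mul_inv, le_div_iff₀ (Real.exp_pos _)]
  exact h2

theorem siftCount_zero_bounds (a : ℤ) (y m : ℕ) (hm : 0 < m) :
    |(siftCount P a y m 0 : ℝ) - (y:ℝ) / m| ≤ 1 := by
  have e : siftCount P a y m 0 = (((Finset.Ico a (a + y)).filter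
      (fun n : ℤ => n ≡ 0 [ZMOD (m:ℤ)])).card) := by
    unfold siftCount
    congr 1
    refine Finset.filter_congr (fun n _ => ?_)
    simp [Int.modEq_zero_iff_dvd]
  have hm' : (0:ℤ) < (m:ℤ) := by exact_mod_cast hm
  have hc := Int.Ico_filter_modEq_card a (a + y) hm' 0
  simp only [Int.cast_zero, sub_zero] at hc
  set u : ℚ := (a:ℚ) / (m:ℤ) with hu
  set w : ℚ := ((a + y : ℤ):ℚ) / (m:ℤ) with hw
  have huw : w = u + (y:ℚ) / m := by
    rw [hw, hu]; push_cast; ring
  have hle : ⌈u⌉ ≤ ⌈w⌉ := by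
    refine Int.ceil_mono ?_
    rw [huw]
    have : (0:ℚ) ≤ (y:ℚ) / m := by positivity
    linarith
  rw [max_eq_left (by linarith)] at hc
  have h1 : ((siftCount P a y m 0 : ℤ) : ℚ) = (⌈w⌉ : ℚ) - ⌈u⌉ := by
    rw [e, hc]; push_cast; ring
  have b1 := Int.le_ceil u
  have b2 := Int.ceil_lt_add_one u
  have b3 := Int.le_ceil w
  have b4 := Int.ceil_lt_add_one w
  have h2 : |((siftCount P a y m 0 : ℕ) : ℚ) - (y:ℚ) / m| ≤ 1 := by
    push_cast at h1
    rw [h1, abs_le]
    constructor <;> linarith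
  have h3 : ((|((siftCount P a y m 0 : ℕ) : ℚ) - (y:ℚ) / m| : ℚ) : ℝ) ≤ ((1:ℚ):ℝ) := by
    exact_mod_cast h2
  push_cast at h3
  exact h3

theorem siftCount_succ (hP : ∀ p ∈ P, p.Prime) (a : ℤ) (y m z : ℕ)
    (hm : z ∈ P → Nat.Coprime m z) :
    siftCount P a y m z = siftCount P a y m (z+1)
      + if z ∈ P then siftCount P a y (m * z) z else 0 := by
  split_ifs with h
  · unfold siftCount
    rw [← Finset.card_union_of_disjoint]
    · congr 1
      ext n
      simp only [mem_union, mem_filter]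
      constructor
      · rintro ⟨hn, hmn, hfree⟩
        by_cases hzn : (z:ℤ) ∣ n
        · refine Or.inr ⟨hn, ?_, hfree⟩
          push_cast
          exact IsCoprime.mul_dvd ((Nat.Coprime.isCoprime (hm h))) hmn hzn
        · refine Or.inl ⟨hn, hmn, fun p hp hpz => ?_⟩
          rcases Nat.lt_succ_iff_lt_or_eq.1 hpz with h' | h'
          · exact hfree p hp h'
          · exact h' ▸ hzn
      · rintro (⟨hn, hmn, hfree⟩ | ⟨hn, hmn, hfree⟩)
        · exact ⟨hn, hmn, fun p hp hpz => hfree p hp (hpz.trans (Nat.lt_succ_self _))⟩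
        · exact ⟨hn, dvd_trans (by push_cast; exact dvd_mul_right _ _) hmn, hfree⟩
    · refine Finset.disjoint_left.2 (fun n hn hn' => ?_)
      simp only [mem_filter] at hn hn'
      refine hn.2.2 z h (Nat.lt_succ_self _) (dvd_trans ?_ hn'.2.1)
      push_cast
      exact dvd_mul_left _ _
  · unfold siftCount
    rw [add_zero]
    congr 1
    refine Finset.filter_congr (fun n _ => and_congr_right (fun _ => ?_))
    constructor
    · intro hfree p hp hpz
      rcases Nat.lt_succ_iff_lt_or_eq.1 hpz with h' | h'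
      · exact hfree p hp h'
      · exact absurd (h' ▸ hp) h
    · exact fun hfree p hp hpz => hfree p hp (hpz.trans (Nat.lt_succ_self _))

theorem siftCount_identity (hP : ∀ p ∈ P, p.Prime) (a : ℤ) (y m z : ℕ)
    (hm : ∀ q ∈ P, q < z → Nat.Coprime m q) :
    siftCount P a y m 0 = siftCount P a y m z
      + ∑ p ∈ P.filter (· < z), siftCount P a y (m * p) p := by
  induction z with
  | zero => simp
  | succ z ih =>
    rw [ih (fun q hq hqz => hm q hq (hqz.trans (Nat.lt_succ_self _))),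
      siftCount_succ hP a y m z (fun h => hm z h (Nat.lt_succ_self _)), filter_lt_succ]
    split_ifs with h
    · rw [Finset.sum_insert (by simp)]; ring
    · ring

theorem coprime_child (hP : ∀ p ∈ P, p.Prime) {m z p : ℕ} (hp : p ∈ P) (hpz : p < z)
    (hm : ∀ q ∈ P, q < z → Nat.Coprime m q) : ∀ q ∈ P, q < p → Nat.Coprime (m * p) q :=
  fun q hq hqp => Nat.Coprime.mul_left (hm q hq (hqp.trans hpz))
    ((Nat.coprime_primes (hP p hp) (hP q hq)).2 (Nat.ne_of_gt hqp))

theorem siftCount_exact (hP : ∀ p ∈ P, p.Prime) (a : ℤ) (y : ℕ) : ∀ (z m : ℕ), 0 < m →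
    (∀ q ∈ P, q < z → Nat.Coprime m q) →
    |(siftCount P a y m z : ℝ) - (y:ℝ) / m * Vp P z| ≤ 2 ^ (P.filter (· < z)).card := by
  intro z
  induction z with
  | zero =>
    intro m hm _
    simpa [Vp_zero] using siftCount_zero_bounds (P := P) a y m hm
  | succ z ih =>
    intro m hm hc
    have hc' : ∀ q ∈ P, q < z → Nat.Coprime m q :=
      fun q hq hqz => hc q hq (hqz.trans (Nat.lt_succ_self _))
    have e := siftCount_succ hP a y m z (fun h => hc z h (Nat.lt_succ_self _))
    have h1 := ih m hm hc'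
    rw [Vp_succ, filter_lt_succ]
    by_cases h : z ∈ P
    · rw [if_pos h] at e ⊢
      rw [if_pos h, Finset.card_insert_of_notMem (by simp), pow_succ]
      have hz0 : 0 < z := (hP z h).pos
      have h2 := ih (m * z) (Nat.mul_pos hm hz0) (coprime_child hP h (Nat.lt_succ_self _) hc)
      have e' : (siftCount P a y m z : ℝ)
          = siftCount P a y m (z+1) + siftCount P a y (m*z) z := by exact_mod_cast e
      push_cast at h2
      have e2 : (y:ℝ) / m * ((1 - 1/(z:ℝ)) * Vp P z)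
          = (y:ℝ) / m * Vp P z - (y:ℝ) / ((m:ℝ) * z) * Vp P z := by
        have : (z:ℝ) ≠ 0 := by positivity
        field_simp
      rw [abs_le] at h1 h2 ⊢
      constructor <;> linarith [h1.1, h1.2, h2.1, h2.2]
    · rw [if_neg h] at e ⊢
      rw [if_neg h]
      simp only [add_zero] at e
      rwa [← e]

theorem two_pow_le_smoothCount (hP : ∀ p ∈ P, p.Prime) {X : ℝ} {z : ℕ}
    (hX : ((∏ p ∈ P.filter (· < z), p : ℕ) : ℝ) ≤ X) :
    2 ^ (P.filter (· < z)).card ≤ smoothCount X z := by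
  rw [← Finset.card_powerset]
  have hsub : ∀ s ∈ (P.filter (· < z)).powerset, ∀ p ∈ s, p.Prime :=
    fun s hs p hp => hP p (mem_filter.1 (Finset.mem_powerset.1 hs hp)).1
  refine Finset.card_le_card_of_injOn (fun s => ∏ p ∈ s, p) (fun s hs => ?_) (fun s hs t ht h => ?_)
  · simp only [mem_coe, mem_filter, mem_Icc]
    refine ⟨⟨Finset.prod_pos (fun p hp => (hsub s hs p hp).pos), Nat.le_floor ?_⟩, ?_⟩
    · refine le_trans ?_ hX
      exact_mod_cast Finset.prod_le_prod_of_subset_of_one_le' (Finset.mem_powerset.1 hs)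
        (fun p hp _ => (hP p (mem_filter.1 hp).1).one_le)
    · intro q hq
      rw [Nat.primeFactors_prod (hsub s hs)] at hq
      exact (mem_filter.1 (Finset.mem_powerset.1 hs hq)).2
  · have h' := congrArg Nat.primeFactors h
    simp only at h'
    rwa [Nat.primeFactors_prod (hsub s hs), Nat.primeFactors_prod (hsub t ht)] at h'

theorem smoothCount_recursion {X : ℝ} (hX : 1 ≤ X) {z : ℕ} {S : Finset ℕ}
    (hS : ∀ p ∈ S, p.Prime ∧ p < z) :
    1 + ∑ p ∈ S, (smoothCount (X / p) p : ℝ) ≤ smoothCount X z := by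
  have hnat : 1 + ∑ p ∈ S, smoothCount (X / p) p ≤ smoothCount X z := by
    set T := fun p : ℕ => (Finset.Icc 1 ⌊X / p⌋₊).filter (fun d => ∀ q ∈ d.primeFactors, q < p)
      with hT
    have hcard : ∑ p ∈ S, smoothCount (X / p) p = (S.sigma T).card := (Finset.card_sigma _ _).symm
    have hinj : Set.InjOn (fun x : (_ : ℕ) × ℕ => x.1 * x.2) ↑(S.sigma T) := by
      rintro ⟨p, d⟩ hpd ⟨p', d'⟩ hpd' he
      simp only [Finset.mem_coe, Finset.mem_sigma, hT, mem_filter, mem_Icc] at hpd hpd'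
      simp only at he
      have hp := (hS p hpd.1).1
      have hp' := (hS p' hpd'.1).1
      have aux : ∀ {p p' d d' : ℕ}, p.Prime → p'.Prime → 1 ≤ d →
          (∀ q ∈ d.primeFactors, q < p) → p * d = p' * d' → p' ≤ p := by
        intro p p' d d' hp hp' hd hlt he
        rcases (Nat.Prime.dvd_mul hp').1 (he ▸ dvd_mul_right p' d') with h | h
        · exact Nat.le_of_dvd hp.pos h
        · exact (hlt p' (Nat.mem_primeFactors.2 ⟨hp', h, by omega⟩)).le
      have hpp : p = p' := le_antisymm (aux hp' hp hpd'.2.1.1 hpd'.2.2 he.symm)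
        (aux hp hp' hpd.2.1.1 hpd.2.2 he)
      subst hpp
      simp only [Nat.mul_left_cancel_iff hp.pos] at he
      subst he
      rfl
    have h1 : 1 ∉ (S.sigma T).image (fun x : (_ : ℕ) × ℕ => x.1 * x.2) := by
      intro h
      obtain ⟨⟨p, d⟩, hpd, he⟩ := Finset.mem_image.1 h
      simp only [Finset.mem_sigma] at hpd
      exact (hS p hpd.1).1.one_lt.ne' (Nat.eq_one_of_mul_eq_one_right he)
    rw [hcard, ← Finset.card_image_of_injOn hinj, add_comm, ← Finset.card_insert_of_notMem h1]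
    refine Finset.card_le_card (fun x hx => ?_)
    simp only [mem_filter, mem_Icc]
    rcases Finset.mem_insert.1 hx with rfl | hx
    · exact ⟨⟨le_rfl, Nat.le_floor (by simpa using hX)⟩, by simp⟩
    · obtain ⟨⟨p, d⟩, hpd, rfl⟩ := Finset.mem_image.1 hx
      simp only [Finset.mem_sigma, hT, mem_filter, mem_Icc] at hpd
      obtain ⟨hpS, ⟨hd1, hd2⟩, hd3⟩ := hpd
      have hp := (hS p hpS).1
      have hp0 : (0:ℝ) < p := by exact_mod_cast hp.pos
      refine ⟨⟨Nat.mul_pos hp.pos hd1, Nat.le_floor ?_⟩, fun q hq => ?_⟩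
      · have h2 : (d:ℝ) ≤ X / p :=
          le_trans (by exact_mod_cast hd2) (Nat.floor_le (div_nonneg (by linarith) hp0.le))
        rw [le_div_iff₀ hp0] at h2
        push_cast
        linarith
      · have hqp := Nat.mem_primeFactors.1 hq
        rcases (Nat.Prime.dvd_mul hqp.1).1 hqp.2.1 with h | h
        · rw [(Nat.prime_dvd_prime_iff_eq hqp.1 hp).1 h]
          exact (hS p hpS).2
        · exact (hd3 q (Nat.mem_primeFactors.2 ⟨hqp.1, h, by omega⟩)).trans (hS p hpS).2
  exact_mod_cast hnat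

theorem smoothCount_le {X : ℝ} (hX : 0 ≤ X) (z : ℕ) : (smoothCount X z : ℝ) ≤ X := by
  have h : smoothCount X z ≤ ⌊X⌋₊ := le_trans (Finset.card_filter_le _ _) (by simp)
  calc (smoothCount X z : ℝ) ≤ (⌊X⌋₊ : ℝ) := by exact_mod_cast h
    _ ≤ X := Nat.floor_le hX

end Vale.Agent.P013
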