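import Mathlib

/-! The two functions of the linear sieve, built by the method of steps (P013). -/

open Real intervalIntegral Filter Set Topology

namespace Vale.Agent.P013

/-- Auxiliary: `W` obtained from a candidate `U`. -/
noncomputable def stepW (U : ℝ → ℝ) (s : ℝ) : ℝ :=
  ∫ x in (2:ℝ)..(max 2 s), U (x - 1) / max (x - 1) 1

/-- Auxiliary: iterates for the upper function times its argument. -/
noncomputable def iterU : ℕ → ℝ → ℝ
  | 0 => fun _ => 1
  | n + 1 => fun s => 1 + ∫ x in (3:ℝ)..s, stepW (iterU n) (x - 1) / max (x - 1) 1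

/-- `s` times the unnormalised upper sieve function. -/
noncomputable def sieveU (s : ℝ) : ℝ := iterU ⌈s⌉₊ s

/-- `s` times the unnormalised lower sieve function. -/
noncomputable def sieveW (s : ℝ) : ℝ := stepW sieveU s

/-- Unnormalised upper sieve function. -/
noncomputable def upperAux (s : ℝ) : ℝ := sieveU s / max s (1/10)

/-- Unnormalised lower sieve function. -/
noncomputable def lowerAux (s : ℝ) : ℝ := sieveW s / max s 1

theorem continuous_div_max {g : ℝ → ℝ} (hg : Continuous g) :
    Continuous (fun x => g (x - 1) / max (x - 1) (1:ℝ)) := by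
  refine (hg.comp (continuous_id.sub continuous_const)).div
    ((continuous_id.sub continuous_const).max continuous_const) (fun x => ?_)
  have : (1:ℝ) ≤ max (x - 1) 1 := le_max_right _ _
  linarith

theorem continuous_stepW {U : ℝ → ℝ} (hU : Continuous U) : Continuous (stepW U) :=
  (intervalIntegral.continuous_primitive
    (fun a b => (continuous_div_max hU).intervalIntegrable a b) 2).comp
    (continuous_const.max continuous_id)

theorem continuous_iterU : ∀ n, Continuous (iterU n)
  | 0 => continuous_const
  | n + 1 => continuous_const.add (intervalIntegral.continuous_primitive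
      (fun a b => (continuous_div_max (continuous_stepW (continuous_iterU n))).intervalIntegrable
        a b) 3)

theorem stepW_congr {U V : ℝ → ℝ} {b s : ℝ} (h : ∀ y ≤ b, U y = V y) (hs : max 2 s - 1 ≤ b) :
    stepW U s = stepW V s := by
  refine intervalIntegral.integral_congr (fun x hx => ?_)
  rw [Set.uIcc_of_le (le_max_left _ _)] at hx
  have : x - 1 ≤ b := by linarith [hx.2]
  simp only [h _ this]

theorem stepW_eq_zero {U : ℝ → ℝ} {s : ℝ} (hs : s ≤ 2) : stepW U s = 0 := by
  simp [stepW, max_eq_left hs]

theorem iterU_stable (n : ℕ) : ∀ s ≤ (3:ℝ) + n, iterU n s = iterU (n+1) s := by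
  induction n with
  | zero =>
    intro s hs
    simp only [Nat.cast_zero, add_zero] at hs
    simp only [iterU]
    have e : Set.EqOn (fun x => stepW (fun _ => (1:ℝ)) (x - 1) / max (x - 1) 1) (fun _ => (0:ℝ))
        (Set.uIcc 3 s) := by
      intro x hx
      rw [Set.uIcc_of_ge hs] at hx
      simp [stepW_eq_zero (show x - 1 ≤ 2 by linarith [hx.2])]
    rw [intervalIntegral.integral_congr e]
    simp
  | succ n ih =>
    intro s hs
    conv_lhs => rw [iterU]
    conv_rhs => rw [iterU]
    beta_reduce
    congr 1
    refine intervalIntegral.integral_congr (fun x hx => ?_)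
    have hx' : x ≤ max 3 s := (Set.mem_uIcc.1 hx).elim (fun h => h.2.trans (le_max_right _ _))
      (fun h => h.2.trans (le_max_left _ _))
    push_cast at hs
    have : max 2 (x - 1) - 1 ≤ 3 + (n:ℝ) := by
      have h0 : (0:ℝ) ≤ n := n.cast_nonneg
      rcases max_cases 3 s with ⟨h, _⟩ | ⟨h, _⟩ <;> rw [h] at hx' <;>
        rcases max_cases 2 (x - 1) with ⟨h', _⟩ | ⟨h', _⟩ <;> linarith
    simp only [stepW_congr ih this]

theorem iterU_stable' {n m : ℕ} (hnm : n ≤ m) {s : ℝ} (hs : s ≤ 3 + n) :
    iterU n s = iterU m s := by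
  induction m, hnm using Nat.le_induction with
  | base => rfl
  | succ m hm ih =>
    rw [ih]
    refine iterU_stable m s (hs.trans ?_)
    have : (n:ℝ) ≤ m := by exact_mod_cast hm
    linarith

theorem sieveU_eq {n : ℕ} {s : ℝ} (hs : s ≤ 3 + n) : sieveU s = iterU n s := by
  rcases le_total n ⌈s⌉₊ with h | h
  · exact (iterU_stable' h hs).symm
  · exact iterU_stable' h (by linarith [Nat.le_ceil s])

theorem continuous_sieveU : Continuous sieveU := by
  rw [continuous_iff_continuousAt]
  intro s
  set n := ⌈s⌉₊
  have hs : s < 3 + (n:ℝ) := by linarith [Nat.le_ceil s]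
  exact (continuous_iterU n).continuousAt.congr
    (Filter.eventuallyEq_of_mem (Iio_mem_nhds hs) (fun x hx => (sieveU_eq (le_of_lt hx)).symm))

theorem continuous_sieveW : Continuous sieveW := continuous_stepW continuous_sieveU

theorem sieveU_integral (s : ℝ) : sieveU s = 1 + ∫ x in (3:ℝ)..s, lowerAux (x - 1) := by
  set n := ⌈s⌉₊ with hn
  have h0 : (0:ℝ) ≤ n := n.cast_nonneg
  have hsn : s ≤ n := Nat.le_ceil s
  rw [sieveU_eq (n := n + 1) (by push_cast; linarith), iterU]
  beta_reduce
  congr 1
  refine intervalIntegral.integral_congr (fun x hx => ?_)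
  have hx' : x ≤ max 3 s := (Set.mem_uIcc.1 hx).elim (fun h => h.2.trans (le_max_right _ _))
    (fun h => h.2.trans (le_max_left _ _))
  have : max 2 (x - 1) - 1 ≤ 3 + (n:ℝ) := by
    rcases max_cases 3 s with ⟨h, _⟩ | ⟨h, _⟩ <;> rw [h] at hx' <;>
      rcases max_cases 2 (x - 1) with ⟨h', _⟩ | ⟨h', _⟩ <;> linarith
  simp only [lowerAux, sieveW]
  rw [stepW_congr (fun y hy => sieveU_eq hy) this]

theorem sieveU_of_le {s : ℝ} (hs : s ≤ 3) : sieveU s = 1 := by
  rw [sieveU_eq (n := 0) (by simpa using hs)]; rfl

theorem sieveW_of_le {s : ℝ} (hs : s ≤ 2) : sieveW s = 0 := stepW_eq_zero hs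

theorem continuous_upperAux : Continuous upperAux :=
  continuous_sieveU.div (continuous_id.max continuous_const) (fun x => by
    have : (1/10:ℝ) ≤ max x (1/10) := le_max_right _ _
    linarith)

theorem continuous_lowerAux : Continuous lowerAux :=
  continuous_sieveW.div (continuous_id.max continuous_const) (fun x => by
    have : (1:ℝ) ≤ max x 1 := le_max_right _ _
    linarith)

theorem hasDerivAt_sieveU (s : ℝ) : HasDerivAt sieveU (lowerAux (s - 1)) s := by
  have hc : Continuous (fun x => lowerAux (x - 1)) :=
    continuous_lowerAux.comp (continuous_id.sub continuous_const)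
  have h := ((hc.integral_hasStrictDerivAt 3 s).hasDerivAt).const_add 1
  exact h.congr_of_eventuallyEq (Filter.Eventually.of_forall sieveU_integral)

theorem hasDerivAt_sieveW {s : ℝ} (hs : 2 < s) : HasDerivAt sieveW (upperAux (s - 1)) s := by
  have h := ((continuous_div_max continuous_sieveU).integral_hasStrictDerivAt 2 s).hasDerivAt
  have e : upperAux (s - 1) = sieveU (s - 1) / max (s - 1) 1 := by
    rw [upperAux, max_eq_left (by linarith), max_eq_left (by linarith)]
  rw [e]
  refine h.congr_of_eventuallyEq (Filter.eventuallyEq_of_mem (Ioi_mem_nhds hs) (fun x hx => ?_))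
  simp only [sieveW, stepW, max_eq_right (le_of_lt (Set.mem_Ioi.1 hx))]

/-- Difference `sieveU - sieveW`. -/
noncomputable def sieveR (s : ℝ) : ℝ := sieveU s - sieveW s

theorem continuous_sieveR : Continuous sieveR := continuous_sieveU.sub continuous_sieveW

theorem sieveR_of_le {s : ℝ} (hs : s ≤ 2) : sieveR s = 1 := by
  simp [sieveR, sieveU_of_le (show s ≤ 3 by linarith), sieveW_of_le hs]

theorem hasDerivAt_sieveR {s : ℝ} (hs : 2 < s) :
    HasDerivAt sieveR (-(sieveR (s - 1) / (s - 1))) s := by
  have h := (hasDerivAt_sieveU s).sub (hasDerivAt_sieveW hs)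
  have e : lowerAux (s - 1) - upperAux (s - 1) = -(sieveR (s - 1) / (s - 1)) := by
    rw [lowerAux, upperAux, sieveR, max_eq_left (by linarith), max_eq_left (by linarith)]
    ring
  rw [e] at h
  exact h

theorem sieveR_identity {s : ℝ} (hs : 2 ≤ s) :
    (s - 1) * sieveR s = ∫ x in (s-1)..s, sieveR x := by
  set P : ℝ → ℝ := fun x => ∫ t in (0:ℝ)..x, sieveR t with hP
  have hPd : ∀ x, HasDerivAt P (sieveR x) x := fun x =>
    (continuous_sieveR.integral_hasStrictDerivAt 0 x).hasDerivAt
  have hint : ∀ a b : ℝ, IntervalIntegrable sieveR MeasureTheory.volume a b :=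
    fun a b => continuous_sieveR.intervalIntegrable a b
  set J : ℝ → ℝ := fun x => (x - 1) * sieveR x - (P x - P (x - 1)) with hJ
  have hPJ : ∀ x, P x - P (x - 1) = ∫ t in (x-1)..x, sieveR t := by
    intro x
    exact intervalIntegral.integral_interval_sub_left (hint 0 x) (hint 0 (x-1))
  have hJ2 : J 2 = 0 := by
    simp only [hJ, hPJ]
    have e : Set.EqOn sieveR (fun _ => (1:ℝ)) (Set.uIcc (2 - 1) 2) := by
      intro x hx
      rw [Set.uIcc_of_le (by norm_num)] at hx
      exact sieveR_of_le hx.2
    rw [intervalIntegral.integral_congr e]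
    norm_num [sieveR_of_le]
  have hJd : ∀ x, 2 < x → HasDerivAt J 0 x := by
    intro x hx
    have h1 := (((hasDerivAt_id x).sub_const 1).mul (hasDerivAt_sieveR hx))
    have h2 := (hPd x).sub ((hPd (x-1)).comp x ((hasDerivAt_id x).sub_const 1))
    have h3 := h1.sub h2
    refine h3.congr_deriv ?_
    have : x - 1 ≠ 0 := by linarith
    simp only [id_eq]
    field_simp
    ring
  have hJc : Continuous J := by
    have hPc : Continuous P := intervalIntegral.continuous_primitive hint 0
    exact ((continuous_id.sub continuous_const).mul continuous_sieveR).sub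
      (hPc.sub (hPc.comp (continuous_id.sub continuous_const)))
  have hJ0 : J s = 0 := by
    rcases eq_or_lt_of_le hs with rfl | h
    · exact hJ2
    · obtain ⟨c, hc, hc'⟩ := exists_hasDerivAt_eq_slope J (fun _ => 0) h hJc.continuousOn
        (fun x hx => hJd x hx.1)
      rw [eq_div_iff (by linarith)] at hc'
      linarith
  simp only [hJ, hPJ] at hJ0
  linarith

theorem sieveR_pos (s : ℝ) : 0 < sieveR s := by
  by_contra hneg
  push Not at hneg
  have hs2 : 2 ≤ s := by
    by_contra h
    push Not at h
    rw [sieveR_of_le h.le] at hneg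
    linarith
  set T : Set ℝ := {x | 2 ≤ x ∧ sieveR x ≤ 0} with hT
  have hTc : IsClosed T :=
    isClosed_Ici.inter (isClosed_le continuous_sieveR continuous_const)
  have hTb : BddBelow T := ⟨2, fun x hx => hx.1⟩
  have hmem : sInf T ∈ T := hTc.csInf_mem ⟨s, hs2, hneg⟩ hTb
  set a := sInf T
  have ha : 2 < a := by
    rcases eq_or_lt_of_le hmem.1 with h | h
    · have := hmem.2
      rw [← h, sieveR_of_le le_rfl] at this
      linarith
    · exact h
  have hpos : ∀ x, x < a → 0 < sieveR x := by
    intro x hx
    by_contra hx'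
    push Not at hx'
    rcases le_total x 2 with h | h
    · rw [sieveR_of_le h] at hx'; linarith
    · exact absurd (csInf_le hTb ⟨h, hx'⟩) (not_le.2 hx)
  have h1 : 0 < ∫ x in (a-1)..a, sieveR x :=
    intervalIntegral.intervalIntegral_pos_of_pos_on (continuous_sieveR.intervalIntegrable _ _)
      (fun x hx => hpos x hx.2) (by linarith)
  rw [← sieveR_identity hmem.1] at h1
  nlinarith [hmem.2]

theorem sieveR_antitone : Antitone sieveR := by
  have h1 : AntitoneOn sieveR (Iic 2) := fun x hx y hy _ => by
    rw [sieveR_of_le hx, sieveR_of_le hy]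
  have h2 : AntitoneOn sieveR (Ici 2) := by
    refine antitoneOn_of_hasDerivWithinAt_nonpos (f' := fun x => -(sieveR (x - 1) / (x - 1)))
      (convex_Ici 2) continuous_sieveR.continuousOn (fun x hx => ?_) (fun x hx => ?_)
    · rw [interior_Ici] at hx
      exact (hasDerivAt_sieveR hx).hasDerivWithinAt
    · rw [interior_Ici] at hx
      have : 0 < x - 1 := by linarith [Set.mem_Ioi.1 hx]
      have := div_pos (sieveR_pos (x - 1)) this
      linarith
  exact h1.Iic_union_Ici h2

theorem sieveR_step {s : ℝ} (hs : 2 ≤ s) : (s - 1) * sieveR s ≤ sieveR (s - 1) := by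
  rw [sieveR_identity hs]
  have h := intervalIntegral.integral_mono_on (a := s - 1) (b := s) (by linarith)
    (continuous_sieveR.intervalIntegrable (μ := MeasureTheory.volume) _ _)
    ((continuous_const (y := sieveR (s - 1))).intervalIntegrable _ _)
    (g := fun _ => sieveR (s - 1)) (fun x hx => sieveR_antitone hx.1)
  simpa using h

theorem sieveR_decay : ∃ C : ℝ, 0 < C ∧ ∀ s, sieveR s ≤ C * Real.exp (-6 * s) := by
  set s0 : ℝ := Real.exp 6 + 2 with hs0
  refine ⟨Real.exp (6 * s0), Real.exp_pos _, ?_⟩
  have key : ∀ n : ℕ, ∀ s ≤ s0 + n, sieveR s ≤ Real.exp (6 * s0) * Real.exp (-6 * s) := by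
    intro n
    induction n with
    | zero =>
      intro s hs
      simp only [Nat.cast_zero, add_zero] at hs
      have : sieveR s ≤ 1 := by
        rcases le_total s 2 with h | h
        · rw [sieveR_of_le h]
        · have := sieveR_antitone h
          rwa [sieveR_of_le le_rfl] at this
      refine this.trans ?_
      rw [← Real.exp_add]
      exact Real.one_le_exp (by linarith)
    | succ n ih =>
      intro s hs
      push_cast at hs
      rcases le_total s s0 with h | h
      · exact ih s (by have : (0:ℝ) ≤ n := n.cast_nonneg; linarith)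
      have he := Real.exp_pos (6:ℝ)
      have h1 := sieveR_step (s := s) (by linarith)
      have h2 := ih (s - 1) (by linarith)
      have e : Real.exp (-6 * (s - 1)) = Real.exp 6 * Real.exp (-6 * s) := by
        rw [← Real.exp_add]; congr 1; ring
      rw [e] at h2
      have h3 : Real.exp 6 * sieveR s ≤ (s - 1) * sieveR s :=
        mul_le_mul_of_nonneg_right (by linarith) (sieveR_pos s).le
      refine le_of_mul_le_mul_left ?_ he
      calc Real.exp 6 * sieveR s ≤ sieveR (s - 1) := h3.trans h1
        _ ≤ _ := h2
        _ = _ := by ring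
  intro s
  exact key ⌈s - s0⌉₊ s (by linarith [Nat.le_ceil (s - s0)])

theorem upperAux_sub_lowerAux {s : ℝ} (hs : 1 ≤ s) :
    upperAux s - lowerAux s = sieveR s / s := by
  rw [upperAux, lowerAux, sieveR, max_eq_left (by linarith), max_eq_left hs]
  ring

theorem lowerAux_of_le {s : ℝ} (hs : s ≤ 2) : lowerAux s = 0 := by
  simp [lowerAux, sieveW_of_le hs]

theorem lowerAux_lt_upperAux (s : ℝ) : lowerAux s < upperAux s := by
  rcases le_total s 1 with h | h
  · rw [lowerAux_of_le (by linarith), upperAux, sieveU_of_le (by linarith)]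
    have : (1/10:ℝ) ≤ max s (1/10) := le_max_right _ _
    have : 0 < max s (1/10) := by linarith
    positivity
  · have := upperAux_sub_lowerAux h
    have := div_pos (sieveR_pos s) (by linarith : (0:ℝ) < s)
    linarith

theorem hasDerivAt_upperAux {s : ℝ} (hs : 1/10 < s) :
    HasDerivAt upperAux (-(upperAux s - lowerAux (s - 1)) / s) s := by
  have h := (hasDerivAt_sieveU s).div (hasDerivAt_id s) (by simp; linarith)
  have he : upperAux =ᶠ[nhds s] fun x => sieveU x / x :=
    Filter.eventuallyEq_of_mem (Ioi_mem_nhds hs) (fun x hx => by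
      simp only [upperAux, max_eq_left (le_of_lt (Set.mem_Ioi.1 hx))])
  refine (h.congr_of_eventuallyEq (f₁ := upperAux) he).congr_deriv ?_
  simp only [id_eq]
  rw [upperAux, max_eq_left hs.le]
  have : s ≠ 0 := by linarith
  field_simp
  ring

theorem hasDerivAt_lowerAux {s : ℝ} (hs : 2 < s) :
    HasDerivAt lowerAux ((upperAux (s - 1) - lowerAux s) / s) s := by
  have h := (hasDerivAt_sieveW hs).div (hasDerivAt_id s) (by simp; linarith)
  have he : lowerAux =ᶠ[nhds s] fun x => sieveW x / x :=
    Filter.eventuallyEq_of_mem (Ioi_mem_nhds hs) (fun x hx => by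
      have : (1:ℝ) ≤ x := by linarith [Set.mem_Ioi.1 hx]
      simp only [lowerAux, max_eq_left this])
  refine (h.congr_of_eventuallyEq (f₁ := lowerAux) he).congr_deriv ?_
  simp only [id_eq]
  rw [lowerAux, max_eq_left (by linarith)]
  have : s ≠ 0 := by linarith
  field_simp

theorem sieveW_bounds {s : ℝ} (hs : 2 ≤ s) (hs' : s ≤ 3) :
    (s - 2) / 2 ≤ sieveW s ∧ sieveW s ≤ s - 2 := by
  have e : sieveW s = ∫ x in (2:ℝ)..s, 1 / max (x - 1) 1 := by
    simp only [sieveW, stepW, max_eq_right hs]
    refine intervalIntegral.integral_congr (fun x hx => ?_)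
    rw [Set.uIcc_of_le hs] at hx
    simp only [sieveU_of_le (show x - 1 ≤ 3 by linarith [hx.2])]
  have hc : Continuous (fun x => (1:ℝ) / max (x - 1) 1) :=
    continuous_div_max (g := fun _ => (1:ℝ)) continuous_const
  rw [e]
  constructor
  · have h := intervalIntegral.integral_mono_on (a := (2:ℝ)) (b := s) hs
      ((continuous_const (y := (1/2:ℝ))).intervalIntegrable (μ := MeasureTheory.volume) _ _)
      (hc.intervalIntegrable _ _)
      (f := fun _ => (1/2:ℝ)) (fun x hx => by
        rw [max_eq_left (by linarith [hx.1]), div_le_div_iff₀ (by norm_num) (by linarith [hx.1])]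
        linarith [hx.2])
    simp only [intervalIntegral.integral_const, smul_eq_mul] at h
    linarith
  · have h := intervalIntegral.integral_mono_on (a := (2:ℝ)) (b := s) hs
      (hc.intervalIntegrable (μ := MeasureTheory.volume) _ _) ((continuous_const (y := (1:ℝ))).intervalIntegrable _ _)
      (g := fun _ => (1:ℝ)) (fun x hx => by
        rw [div_le_one (by linarith [le_max_right (x - 1) (1:ℝ)])]
        exact le_max_right _ _)
    simp only [intervalIntegral.integral_const, smul_eq_mul] at h
    linarith

theorem aux_D_pos : ∀ s, 2 ≤ s → lowerAux (s - 1) < upperAux s ∧ lowerAux s < upperAux (s - 1) := by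
  have base : ∀ s, 2 ≤ s → s ≤ 3 →
      lowerAux (s - 1) < upperAux s ∧ lowerAux s < upperAux (s - 1) := by
    intro s h2 h3
    constructor
    · rw [lowerAux_of_le (by linarith), upperAux, sieveU_of_le h3]
      have : 0 < max s (1/10) := by positivity
      positivity
    · rw [lowerAux, upperAux, sieveU_of_le (by linarith), max_eq_left (by linarith),
        max_eq_left (by linarith), div_lt_div_iff₀ (by linarith) (by linarith)]
      nlinarith [(sieveW_bounds h2 h3).2]
  by_contra hcon
  push Not at hcon
  obtain ⟨s, hs, hbad⟩ := hcon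
  set T : Set ℝ := {x | 2 ≤ x ∧
    (upperAux x ≤ lowerAux (x - 1) ∨ upperAux (x - 1) ≤ lowerAux x)} with hT
  have c1 : Continuous (fun x => lowerAux (x - 1)) :=
    continuous_lowerAux.comp (continuous_id.sub continuous_const)
  have c2 : Continuous (fun x => upperAux (x - 1)) :=
    continuous_upperAux.comp (continuous_id.sub continuous_const)
  have hTc : IsClosed T := isClosed_Ici.inter
    ((isClosed_le continuous_upperAux c1).union (isClosed_le c2 continuous_lowerAux))
  have hTb : BddBelow T := ⟨2, fun x hx => hx.1⟩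
  have hTne : T.Nonempty := by
    refine ⟨s, hs, ?_⟩
    rcases lt_or_ge (lowerAux (s - 1)) (upperAux s) with h | h
    · exact Or.inr (hbad h)
    · exact Or.inl h
  have hmem : sInf T ∈ T := hTc.csInf_mem hTne hTb
  set a := sInf T
  have hgood : ∀ x, 2 ≤ x → x < a →
      lowerAux (x - 1) < upperAux x ∧ lowerAux x < upperAux (x - 1) := by
    intro x h2 hx
    by_contra hx'
    push Not at hx'
    refine absurd (csInf_le hTb ⟨h2, ?_⟩) (not_le.2 hx)
    rcases lt_or_ge (lowerAux (x - 1)) (upperAux x) with h | h
    · exact Or.inr (hx' h)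
    · exact Or.inl h
  have ha3 : 3 < a := by
    by_contra h
    push Not at h
    obtain ⟨b1, b2⟩ := base a hmem.1 h
    rcases hmem.2 with h' | h' <;> linarith
  have hF : AntitoneOn upperAux (Icc 2 a) := by
    refine antitoneOn_of_hasDerivWithinAt_nonpos
      (f' := fun x => -(upperAux x - lowerAux (x - 1)) / x) (convex_Icc 2 a)
      continuous_upperAux.continuousOn (fun x hx => ?_) (fun x hx => ?_)
    · rw [interior_Icc] at hx
      exact (hasDerivAt_upperAux (by linarith [hx.1])).hasDerivWithinAt
    · rw [interior_Icc] at hx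
      have := (hgood x hx.1.le hx.2).1
      exact div_nonpos_of_nonpos_of_nonneg (by linarith) (by linarith [hx.1])
  have hf : MonotoneOn lowerAux (Icc 2 a) := by
    refine monotoneOn_of_hasDerivWithinAt_nonneg
      (f' := fun x => (upperAux (x - 1) - lowerAux x) / x) (convex_Icc 2 a)
      continuous_lowerAux.continuousOn (fun x hx => ?_) (fun x hx => ?_)
    · rw [interior_Icc] at hx
      exact (hasDerivAt_lowerAux hx.1).hasDerivWithinAt
    · rw [interior_Icc] at hx
      have := (hgood x hx.1.le hx.2).2
      exact div_nonneg (by linarith) (by linarith [hx.1])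
  have e1 := hF (a := a - 1) ⟨by linarith, by linarith⟩ (b := a) ⟨hmem.1, le_rfl⟩ (by linarith)
  have e2 := hf (a := a - 1) ⟨by linarith, by linarith⟩ (b := a) ⟨hmem.1, le_rfl⟩ (by linarith)
  have e3 := lowerAux_lt_upperAux a
  rcases hmem.2 with h' | h' <;> linarith

theorem upperAux_strictAnti : StrictAntiOn upperAux (Ici 2) := by
  refine strictAntiOn_of_deriv_neg (convex_Ici 2) continuous_upperAux.continuousOn (fun x hx => ?_)
  rw [interior_Ici] at hx
  have hx2 : (2:ℝ) < x := hx
  rw [(hasDerivAt_upperAux (by linarith)).deriv]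
  have := (aux_D_pos x hx2.le).1
  exact div_neg_of_neg_of_pos (by linarith) (by linarith)

theorem lowerAux_strictMono : StrictMonoOn lowerAux (Ici 2) := by
  refine strictMonoOn_of_deriv_pos (convex_Ici 2) continuous_lowerAux.continuousOn (fun x hx => ?_)
  rw [interior_Ici] at hx
  have hx2 : (2:ℝ) < x := hx
  rw [(hasDerivAt_lowerAux hx2).deriv]
  have := (aux_D_pos x hx2.le).2
  exact div_pos (by linarith) (by linarith)

theorem upperAux_antitone : Antitone upperAux := by
  have h1 : AntitoneOn upperAux (Iic 2) := fun x hx y hy hxy => by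
    have hx2 : x ≤ 2 := hx
    have hy2 : y ≤ 2 := hy
    simp only [upperAux, sieveU_of_le (show x ≤ 3 by linarith),
      sieveU_of_le (show y ≤ 3 by linarith)]
    exact one_div_le_one_div_of_le (by positivity) (max_le_max hxy le_rfl)
  exact h1.Iic_union_Ici upperAux_strictAnti.antitoneOn

theorem lowerAux_monotone : Monotone lowerAux := by
  have h1 : MonotoneOn lowerAux (Iic 2) := fun x hx y hy _ => by
    rw [lowerAux_of_le hx, lowerAux_of_le hy]
  exact h1.Iic_union_Ici lowerAux_strictMono.monotoneOn

/-- The normalised linear sieve functions and the properties used in the induction. -/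
theorem exists_sieve_functions : ∃ F f : ℝ → ℝ, ∃ A C : ℝ, 0 < A ∧ 0 < C ∧
    Antitone F ∧ Monotone f ∧ (∀ s, 1 < F s) ∧ (∀ s, f s < 1) ∧ (∀ s, 0 ≤ f s) ∧
    (∀ s ≤ (2:ℝ), f s = 0) ∧
    (∀ s, F s - 1 ≤ C * Real.exp (-5 * s)) ∧ (∀ s, 1 - f s ≤ C * Real.exp (-5 * s)) ∧
    (∀ s T, 2 ≤ s → s ≤ T →
      ∫ x in s..T, (F (x - 1) - 1) = s * (1 - f s) - T * (1 - f T)) ∧
    (∀ s T, 1/10 < s → s ≤ T →
      ∫ x in s..T, (1 - f (x - 1)) = s * (F s - 1) - T * (F T - 1)) ∧
    (∀ ε, 0 ≤ ε → ε ≤ 1 → ε * A / 6 ≤ f (2 + ε) ∧ f (2 + ε) ≤ A * ε) := by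
  set c := ⨆ s, lowerAux s with hc
  have hle : ∀ s t, lowerAux s ≤ upperAux t := fun s t =>
    ((lowerAux_monotone (le_max_left s t)).trans (lowerAux_lt_upperAux _).le).trans
      (upperAux_antitone (le_max_right s t))
  have hbdd : BddAbove (Set.range lowerAux) := ⟨upperAux 0, by rintro _ ⟨s, rfl⟩; exact hle s 0⟩
  have hlc : ∀ s, lowerAux s ≤ c := fun s => le_ciSup hbdd s
  have hcu : ∀ t, c ≤ upperAux t := fun t => ciSup_le (fun s => hle s t)
  have h3 : 0 < lowerAux 3 := by
    have := (sieveW_bounds (s := 3) (by norm_num) le_rfl).1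
    rw [lowerAux, max_eq_left (by norm_num : (1:ℝ) ≤ 3)]
    exact div_pos (by linarith) (by norm_num)
  have hc0 : 0 < c := h3.trans_le (hlc 3)
  have hcu' : ∀ t, c < upperAux t := by
    intro t
    have h := upperAux_strictAnti (a := max t 2) (le_max_right t 2) (b := max t 2 + 1)
      (by simp only [Set.mem_Ici]; linarith [le_max_right t 2]) (by linarith)
    exact ((hcu _).trans_lt h).trans_le (upperAux_antitone (le_max_left t 2))
  have hlc' : ∀ t, lowerAux t < c := by
    intro t
    have h := lowerAux_strictMono (a := max t 2) (le_max_right t 2) (b := max t 2 + 1)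
      (by simp only [Set.mem_Ici]; linarith [le_max_right t 2]) (by linarith)
    exact (lowerAux_monotone (le_max_left t 2)).trans_lt (h.trans_le (hlc _))
  obtain ⟨CR, hCR, hR⟩ := sieveR_decay
  set C := 10 / c * Real.exp 10 + CR / c with hC
  have hCpos : 0 < C := by positivity
  have hdec : ∀ s, (upperAux s - lowerAux s) / c ≤ C * Real.exp (-5 * s) := by
    intro s
    rcases le_total s 2 with h | h
    · have h1 : upperAux s ≤ 10 := by
        rw [upperAux, sieveU_of_le (by linarith)]
        calc (1:ℝ) / max s (1/10) ≤ 1 / (1/10) :=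
              one_div_le_one_div_of_le (by norm_num) (le_max_right _ _)
          _ = 10 := by norm_num
      rw [lowerAux_of_le h, sub_zero]
      have h2 : 1 ≤ Real.exp 10 * Real.exp (-5 * s) := by
        rw [← Real.exp_add]; exact Real.one_le_exp (by linarith)
      calc upperAux s / c ≤ 10 / c := by gcongr
        _ = 10 / c * 1 := by ring
        _ ≤ 10 / c * (Real.exp 10 * Real.exp (-5 * s)) := by
            exact mul_le_mul_of_nonneg_left h2 (by positivity)
        _ ≤ _ := by
            rw [hC, add_mul, ← mul_assoc]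
            have : 0 < CR / c * Real.exp (-5 * s) := by positivity
            linarith
    · rw [upperAux_sub_lowerAux (by linarith)]
      have h1 : sieveR s / s ≤ sieveR s := div_le_self (sieveR_pos s).le (by linarith)
      have h2 : CR * Real.exp (-6 * s) ≤ CR * Real.exp (-5 * s) :=
        mul_le_mul_of_nonneg_left (Real.exp_le_exp.2 (by linarith)) hCR.le
      calc sieveR s / s / c ≤ CR * Real.exp (-5 * s) / c := by
            gcongr; linarith [hR s]
        _ ≤ _ := by
            rw [hC, add_mul]
            have : 0 < 10 / c * Real.exp 10 * Real.exp (-5 * s) := by positivity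
            have e : CR * Real.exp (-5 * s) / c = CR / c * Real.exp (-5 * s) := by ring
            linarith
  refine ⟨fun s => upperAux s / c, fun s => lowerAux s / c, 1 / c, C, by positivity, hCpos,
    fun x y h => div_le_div_of_nonneg_right (upperAux_antitone h) hc0.le,
    fun x y h => div_le_div_of_nonneg_right (lowerAux_monotone h) hc0.le,
    fun s => (one_lt_div hc0).2 (hcu' s), fun s => (div_lt_one hc0).2 (hlc' s),
    fun s => ?_, fun s hs => by simp [lowerAux_of_le hs], fun s => ?_, fun s => ?_,
    fun s T hs hT => ?_, fun s T hs hT => ?_, fun ε h0 h1 => ?_⟩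
  · have := lowerAux_monotone (min_le_left s 0)
    rw [lowerAux_of_le (le_trans (min_le_right s 0) (by norm_num))] at this
    exact div_nonneg this hc0.le
  · refine le_trans ?_ (hdec s)
    rw [sub_div]
    linarith [(div_le_one hc0).2 (hlc s)]
  · refine le_trans ?_ (hdec s)
    rw [sub_div]
    linarith [(one_le_div hc0).2 (hcu s)]
  · have e : ∀ x, 2 ≤ x → x * (1 - lowerAux x / c) = x - sieveW x / c := by
      intro x hx
      rw [lowerAux, max_eq_left (by linarith)]
      have : x ≠ 0 := by linarith
      field_simp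
    rw [intervalIntegral.integral_eq_sub_of_hasDerivAt_of_le hT
      (f := fun x => sieveW x / c - x) ((continuous_sieveW.div_const c).sub continuous_id).continuousOn
      (fun x hx => ((hasDerivAt_sieveW (by linarith [hx.1])).div_const c).sub (hasDerivAt_id x))
      (((continuous_upperAux.comp (continuous_id.sub continuous_const)).div_const c).sub
        continuous_const |>.intervalIntegrable _ _)]
    rw [e s hs, e T (hs.trans hT)]
    ring
  · have e : ∀ x, 1/10 < x → x * (upperAux x / c - 1) = sieveU x / c - x := by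
      intro x hx
      rw [upperAux, max_eq_left hx.le]
      have : x ≠ 0 := by linarith
      field_simp
    rw [intervalIntegral.integral_eq_sub_of_hasDerivAt
      (f := fun x => x - sieveU x / c)
      (fun x _ => (hasDerivAt_id x).sub ((hasDerivAt_sieveU x).div_const c))
      ((continuous_const.sub
        ((continuous_lowerAux.comp (continuous_id.sub continuous_const)).div_const c)).intervalIntegrable _ _)]
    rw [e s hs, e T (hs.trans_le hT)]
    ring
  · obtain ⟨l, u⟩ := sieveW_bounds (s := 2 + ε) (by linarith) (by linarith)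
    simp only [lowerAux, max_eq_left (show (1:ℝ) ≤ 2 + ε by linarith)]
    constructor
    · calc ε * (1 / c) / 6 = (ε / 6) / c := by ring
        _ ≤ _ := by
          refine div_le_div_of_nonneg_right ?_ hc0.le
          rw [le_div_iff₀ (by linarith)]
          nlinarith
    · calc sieveW (2 + ε) / (2 + ε) / c ≤ ε / c := by
            refine div_le_div_of_nonneg_right ?_ hc0.le
            rw [div_le_iff₀ (by linarith)]
            nlinarith
        _ = _ := by ring

end Vale.Agent.P013
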