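import Vale.Agent.P013.Sieve

/-! Choice of constants and the bound for Jacobsthal's function (P013). -/

open Finset Real

namespace Vale.Agent.P013

theorem exists_good : ∃ c : Cst, c.Good := by
  obtain ⟨F, f, A, C, hA, hC, hFa, hfm, hF1, hf1, hf0, hfz, hFd, hfd, hFi, hfi, hnear⟩ :=
    exists_sieve_functions
  obtain ⟨K, hK, hmer⟩ := mertens_interval
  set C5 := C * Real.exp 5 + Real.exp 25 with hC5
  set phi := min (1 - f 22) (F 22 - 1) with hphi
  have hphi0 : 0 < phi := lt_min (by linarith [hf1 22]) (by linarith [hF1 22])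
  set γ := min (1/1400) (phi / (900 * A)) with hγ
  set Cc := 12 * K * C5 with hCc
  set B := 672 * Cc / phi with hB
  set z0 := ⌈Real.exp (50 * K)⌉₊ + 2 with hz0
  have hC5pos : 0 < C5 := by positivity
  have hCcpos : 0 < Cc := by positivity
  have hBpos : 0 < B := by positivity
  set L1 := (200 * B) ^ 2 + 100 * B + 10 * K + Real.exp 2 + 8 + 4 * Real.log z0 with hL1
  have hshift : ∀ x : ℝ, C * Real.exp (-5 * (x - 1)) ≤ C5 * Real.exp (-5 * x) := fun x => by
    rw [show -5 * (x - 1) = 5 + -5 * x by ring, Real.exp_add, hC5, add_mul, ← mul_assoc]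
    have : 0 ≤ Real.exp 25 * Real.exp (-5 * x) := by positivity
    linarith
  have hlz0 : 50 * K ≤ Real.log z0 := by
    calc 50 * K = Real.log (Real.exp (50 * K)) := (Real.log_exp _).symm
      _ ≤ _ := Real.log_le_log (Real.exp_pos _) (by
          rw [hz0]; push_cast; linarith [Nat.le_ceil (Real.exp (50 * K))])
  refine ⟨⟨F, f, A, C5, K, γ, B, Cc, phi, L1, z0⟩,
    { A_pos := hA, F_anti := hFa, f_mono := hfm, F_gt := hF1, f_lt := hf1, f_nonneg := hf0,
      f_zero := hfz, F_int := hFi, f_int := hfi, f_near := hnear,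
      F_decay := fun x => (hFd (x - 1)).trans (hshift x),
      f_decay := fun x => (hfd (x - 1)).trans (hshift x),
      C5_big := ?_, K_one := hK, mertens := hmer, γ_pos := ?_, γ_small := min_le_left _ _,
      γ_A := ?_, phi_pos := hphi0, phi_f := min_le_left _ _, phi_F := min_le_right _ _,
      C_big := le_rfl, B_big := ?_, z0_two := by simp [hz0], z0_big := ?_, L1_z0 := ?_,
      large := ?_ }⟩
  · have : 0 < C * Real.exp 5 := by positivity
    show Real.exp 25 ≤ C5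
    linarith
  · show 0 < γ
    exact lt_min (by norm_num) (by positivity)
  · show 900 * A * γ ≤ phi
    have h := mul_le_mul_of_nonneg_left (min_le_right (1/1400) (phi / (900 * A)))
      (show 0 ≤ 900 * A by positivity)
    rw [mul_div_cancel₀ _ (by positivity : (900 * A) ≠ 0)] at h
    exact h
  · show 672 * Cc ≤ B * phi
    rw [hB, div_mul_cancel₀ _ hphi0.ne']
  · show K / Real.log z0 ≤ 1/50
    rw [div_le_iff₀ (by linarith)]
    linarith
  · show 4 * Real.log z0 ≤ L1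
    have := Real.exp_pos 2
    nlinarith [sq_nonneg (200 * B)]
  · intro L hL
    change L1 < L at hL
    show B * Real.log L ≤ L/100 ∧ B ≤ L/100 ∧ K ≤ L/10 ∧ 2 ≤ Real.log L ∧ 8 ≤ L
    have hlz : 0 ≤ Real.log z0 := by linarith
    have he := Real.exp_pos 2
    have hsq := sq_nonneg (200 * B)
    have hL0 : 0 < L := by linarith
    refine ⟨?_, by linarith, by linarith, ?_, by linarith⟩
    · have hs : Real.log L ≤ 2 * Real.sqrt L := by
        have h := Real.log_le_sub_one_of_pos (Real.sqrt_pos.2 hL0)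
        rw [Real.log_sqrt hL0.le] at h
        linarith
      have h2 : 200 * B ≤ Real.sqrt L := Real.le_sqrt_of_sq_le (by linarith)
      have h3 := Real.mul_self_sqrt hL0.le
      nlinarith [mul_le_mul_of_nonneg_left hs hBpos.le,
        mul_le_mul_of_nonneg_right h2 (Real.sqrt_nonneg L)]
    · calc (2:ℝ) = Real.log (Real.exp 2) := (Real.log_exp 2).symm
        _ ≤ _ := Real.log_le_log he (by linarith)

theorem exists_coprime_of_count {n : ℕ} (hn : 0 < n) (a : ℤ) (y z : ℕ)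
    (h : ∑ p ∈ n.primeFactors.filter (fun p => z ≤ p),
      (siftCount n.primeFactors a y p 0 : ℝ) < (siftCount n.primeFactors a y 1 z : ℝ)) :
    ∃ i ∈ Set.Ico a (a + (y:ℤ)), IsCoprime i (n:ℤ) := by
  set P := n.primeFactors
  set G := (Finset.Ico a (a + y)).filter
    (fun i : ℤ => ((1:ℕ):ℤ) ∣ i ∧ ∀ p ∈ P, p < z → ¬ (p:ℤ) ∣ i) with hG
  set Bd := (P.filter (fun p => z ≤ p)).biUnion
    (fun p => (Finset.Ico a (a + y)).filter
      (fun i : ℤ => (p:ℤ) ∣ i ∧ ∀ q ∈ P, q < 0 → ¬ (q:ℤ) ∣ i)) with hBd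
  have hlt : (Bd.card : ℝ) < G.card := by
    refine lt_of_le_of_lt ?_ h
    have := Finset.card_biUnion_le (s := P.filter (fun p => z ≤ p))
      (t := fun p => (Finset.Ico a (a + y)).filter
        (fun i : ℤ => (p:ℤ) ∣ i ∧ ∀ q ∈ P, q < 0 → ¬ (q:ℤ) ∣ i))
    unfold siftCount
    exact_mod_cast this
  obtain ⟨i, hiG, hiB⟩ := Finset.not_subset.1
    (fun hsub : G ⊆ Bd => absurd (Finset.card_le_card hsub) (not_le.2 (by exact_mod_cast hlt)))
  obtain ⟨hiI, -, hfree⟩ := mem_filter.1 hiG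
  refine ⟨i, by simpa using hiI, ?_⟩
  rw [Int.isCoprime_iff_nat_coprime]
  by_contra hnc
  obtain ⟨p, hp, hpi, hpn⟩ := Nat.Prime.not_coprime_iff_dvd.1 hnc
  simp only [Int.natAbs_natCast] at hpn
  have hpP : p ∈ P := Nat.mem_primeFactors.2 ⟨hp, hpn, hn.ne'⟩
  have hdvd : (p:ℤ) ∣ i := Int.natCast_dvd.2 hpi
  rcases lt_or_ge p z with h' | h'
  · exact hfree p hpP h' hdvd
  · exact hiB (Finset.mem_biUnion.2 ⟨p, mem_filter.2 ⟨hpP, h'⟩,
      mem_filter.2 ⟨hiI, hdvd, fun q _ hq => absurd hq (Nat.not_lt_zero q)⟩⟩)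

theorem choice_count {c : Cst} (hc : c.Good) {n : ℕ} (hn : 1 < n) {M0 : ℝ} (hM1 : 1 ≤ M0)
    (hM : ∀ z' : ℕ, (z' ≤ c.z0 ∨ Real.log z' ≤ 2 * c.L1) →
      ((∏ p ∈ n.primeFactors.filter (· < z'), p : ℕ) : ℝ) ≤ M0)
    {z : ℕ} (hz2 : 2 ≤ z) {L cV Λ : ℝ}
    (hcVdef : cV = Real.log 2 / (1 + c.K / Real.log 2)) (hΛdef : Λ = 6 * (c.C + 1) / c.A)
    (hlz100 : 100 ≤ Real.log z) (hΛl : Λ ≤ Real.log z / 2) (hcVl : 11 / cV ≤ Real.log z)
    (hLlo : 199/100 * Real.log z ≤ L) (hLhi : L ≤ 3 * Real.log z)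
    (hell0 : 2 * Real.log z + Λ + 2 * c.B * Real.log (Real.log z)
      - c.γ * deficit n.primeFactors z ≤ L)
    (hk3 : (n.primeFactors.card : ℝ) * (Real.log z / 2) ^ 3 ≤ (z:ℝ))
    (hkL : (n.primeFactors.card : ℝ) ≤ Real.exp L) (a : ℤ) :
    ∃ i ∈ Set.Ico a (a + (⌈Real.exp L * M0 * Real.log z ^ 4⌉₊ : ℤ)), IsCoprime i (n:ℤ) := by
  set P := n.primeFactors with hPdef
  have hP : ∀ p ∈ P, p.Prime := fun p hp => Nat.prime_of_mem_primeFactors hp
  set k := P.card
  set lz := Real.log z with hlz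
  set d := deficit P z with hd
  set D := Real.exp L with hD
  have hD1 : 1 ≤ D := Real.one_le_exp (by linarith)
  have hlogD : Real.log D = L := Real.log_exp L
  set y := ⌈D * M0 * lz ^ 4⌉₊
  have hylo : D * M0 * lz ^ 4 ≤ (y:ℝ) := Nat.le_ceil _
  have hy0 : 0 < (y:ℝ) := lt_of_lt_of_le (by positivity) hylo
  have hzpos : (0:ℝ) < z := by positivity
  have hK0 : 0 < c.K := by linarith [hc.K_one]
  have hl2 : 0 < Real.log 2 := Real.log_pos (by norm_num)
  have hcV : cV = Real.log 2 / (1 + c.K / Real.log 2) := hcVdef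
  have hcV0 : 0 < cV := by rw [hcV]; positivity
  have hΛ : Λ = 6 * (c.C + 1) / c.A := hΛdef
  have hΛ0 : 0 < Λ := by have := hc.C_pos; have := hc.A_pos; rw [hΛ]; positivity
  have hB0 := hc.B_pos
  refine exists_coprime_of_count (by omega) a y z ?_
  have hell : 2 * lz + Λ ≤ ell c P D z := by
    rw [ell, hlogD, ← hd]
    have h1 : Real.log L ≤ 2 * Real.log lz := by
      have h := Real.log_le_log (show 0 < L by linarith) (show L ≤ lz ^ 2 by nlinarith)
      rw [Real.log_pow] at h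
      push_cast at h
      exact h
    have h1' := mul_le_mul_of_nonneg_left h1 hB0.le
    have h2 : 0 ≤ c.γ * d ^ 2 / L :=
      div_nonneg (mul_nonneg hc.γ_pos.le (sq_nonneg _)) (by linarith)
    linarith
  have hs : 2 + Λ / lz ≤ ell c P D z / lz := by
    rw [le_div_iff₀ (by linarith), add_mul, div_mul_cancel₀ _ (by linarith : lz ≠ 0)]
    exact hell
  have hε1 : Λ / lz ≤ 1 := by rw [div_le_one (by linarith)]; linarith
  have hε0 : 0 ≤ Λ / lz := by positivity
  have hf : (c.C + 1) / lz ≤ c.f (ell c P D z / lz) := by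
    refine le_trans ?_ (hc.f_mono hs)
    refine le_trans (le_of_eq ?_) (hc.f_near _ hε0 hε1).1
    rw [hΛ]
    have := hc.A_pos
    field_simp
  have herr : errTerm c D z ≤ c.C / lz := by
    rw [errTerm, hlogD]
    have hC := hc.C_pos
    refine div_le_div₀ hC.le ?_ (by linarith) (by linarith)
    refine mul_le_of_le_one_right hC.le (Real.exp_le_one_iff.2 (neg_nonpos.2 ?_))
    exact div_nonneg (by linarith) (by linarith)
  have hgap : 1 / lz ≤ c.f (ell c P D z / lz) - errTerm c D z := by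
    rw [add_div] at hf
    linarith
  have hlow := (sieve_bounds hc hP a y hM1 hM z 1 D hD1 one_pos
    (fun q _ _ => Nat.coprime_one_left q)).2 (by rw [hlogD]; linarith)
    (fun _ _ => le_trans (by linarith) hs)
  have hV : cV / lz ≤ Vp P z := by
    have h := Vp_ratio_le hP (K := c.K) (fun u v hu hv => (hc.mertens u v hu hv).1) le_rfl hz2
    rw [Nat.cast_ofNat] at h
    have h2 : Vp P 2 = 1 := by
      unfold Vp
      refine Finset.prod_eq_one (fun p hp => ?_)
      have := (hP p (mem_filter.1 hp).1).two_le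
      have := (mem_filter.1 hp).2
      omega
    rw [h2] at h
    have he : Real.exp (-(∑ g ∈ miss P 2 z, 1/(g:ℝ))) ≤ 1 :=
      Real.exp_le_one_iff.2 (neg_nonpos.2 (Finset.sum_nonneg (fun g _ => by positivity)))
    have h3 : 1 / Vp P z ≤ lz / cV := by
      refine h.trans ((mul_le_of_le_one_right (by positivity) he).trans (le_of_eq ?_))
      rw [hcV, ← hlz]; field_simp
    rw [div_le_div_iff₀ (Vp_pos hP z) hcV0, one_mul] at h3
    rw [div_le_iff₀ (by linarith)]
    linarith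
  have hmain : (y:ℝ) * (cV / lz) * (1 / lz) - (y:ℝ) / lz ^ 4 ≤ (siftCount P a y 1 z : ℝ) := by
    refine le_trans ?_ hlow
    rw [Nat.cast_one, div_one]
    have h1 : (y:ℝ) * (cV / lz) * (1 / lz)
        ≤ (y:ℝ) * Vp P z * (c.f (ell c P D z / lz) - errTerm c D z) :=
      mul_le_mul (mul_le_mul_of_nonneg_left hV hy0.le) hgap (by positivity)
        (mul_nonneg hy0.le (Vp_pos hP z).le)
    have h2 : (smoothCount (M0 * D) z : ℝ) ≤ (y:ℝ) / lz ^ 4 := by
      refine (smoothCount_le (by positivity) z).trans ?_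
      rw [le_div_iff₀ (by positivity)]
      linarith
    linarith
  have hbig : ∑ p ∈ P.filter (fun p => z ≤ p), (siftCount P a y p 0 : ℝ)
      ≤ 8 * (y:ℝ) / lz ^ 3 + (y:ℝ) / lz ^ 4 := by
    have h1 : ∀ p ∈ P.filter (fun p => z ≤ p), (siftCount P a y p 0 : ℝ) ≤ (y:ℝ) / z + 1 := by
      intro p hp
      obtain ⟨hpP, hzp⟩ := mem_filter.1 hp
      have h := (abs_le.1 (siftCount_zero_bounds (P := P) a y p (hP p hpP).pos)).2
      have : (y:ℝ) / p ≤ (y:ℝ) / z :=
        div_le_div_of_nonneg_left hy0.le hzpos (by exact_mod_cast hzp)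
      linarith
    refine (Finset.sum_le_card_nsmul _ _ _ h1).trans ?_
    rw [nsmul_eq_mul]
    have hcard : ((P.filter (fun p => z ≤ p)).card : ℝ) ≤ k := by
      exact_mod_cast Finset.card_filter_le _ _
    refine (mul_le_mul_of_nonneg_right hcard (by positivity)).trans ?_
    rw [mul_add, mul_one]
    refine add_le_add ?_ ?_
    · have h3 : (z:ℝ) ≥ k * (lz / 2) ^ 3 := hk3
      rw [← mul_div_assoc, div_le_div_iff₀ hzpos (by positivity)]
      have := mul_le_mul_of_nonneg_left h3 (show 0 ≤ 8 * (y:ℝ) by linarith)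
      linarith
    · rw [le_div_iff₀ (by positivity)]
      refine le_trans ?_ hylo
      have hkD : (k:ℝ) ≤ D * M0 := hkL.trans (le_mul_of_one_le_right (by positivity) hM1)
      exact mul_le_mul_of_nonneg_right hkD (by positivity)
  have hfinal : 8 * (y:ℝ) / lz ^ 3 + (y:ℝ) / lz ^ 4
      < (y:ℝ) * (cV / lz) * (1 / lz) - (y:ℝ) / lz ^ 4 := by
    have h11 : 11 ≤ cV * lz := by rw [div_le_iff₀ hcV0] at hcVl; linarith
    have e : (y:ℝ) * (cV / lz) * (1 / lz) - (y:ℝ) / lz ^ 4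
        - (8 * (y:ℝ) / lz ^ 3 + (y:ℝ) / lz ^ 4)
        = (y:ℝ) * ((cV * lz) * lz - 8 * lz - 2) / lz ^ 4 := by
      field_simp
      ring
    have : 0 < (y:ℝ) * ((cV * lz) * lz - 8 * lz - 2) / lz ^ 4 := by
      refine div_pos (mul_pos hy0 ?_) (by positivity)
      nlinarith
    linarith
  linarith

theorem size_bound {γ Λ B L d Δ lz lk k k' k0 u R M0 : ℝ} {N' : ℕ} {z : ℕ}
    (hγ : 0 ≤ γ) (hN : 2 * B ≤ N') (hM1 : 1 ≤ M0) (hllz : 0 ≤ Real.log lz)
    (hzpos : (0:ℝ) < z) (hlz : lz = Real.log z) (hzup : (z:ℝ) ≤ 2 * (k' * lk ^ 3))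
    (hlz0 : 0 < lz) (hlz2 : lz ≤ 2 * lk) (hlkR : lk ≤ R * u)
    (hk'0 : 0 ≤ k') (hk'k : k' ≤ k0 * k) (hΔd : Δ ≤ d)
    (hL : L = 2 * lz + Λ + 2 * B * Real.log lz - γ * d) :
    2 * (Real.exp L * M0 * lz ^ 4)
      ≤ 8 * Real.exp Λ * M0 * k0 ^ 2 * 2 ^ (4 + N') * R ^ (10 + N') * k ^ 2 * u ^ (10 + N')
        * Real.exp (-γ * Δ) := by
  have hlk0 : 0 < lk := by linarith
  have hR0 : 0 ≤ R * u := by linarith
  have e : Real.exp L = Real.exp lz ^ 2 * Real.exp Λ * Real.exp (2 * B * Real.log lz)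
      * Real.exp (-(γ * d)) := by
    rw [← Real.exp_nat_mul, ← Real.exp_add, ← Real.exp_add, ← Real.exp_add, hL]
    push_cast; ring_nf
  have h1 : Real.exp lz ≤ 2 * (k' * lk ^ 3) := by rwa [hlz, Real.exp_log hzpos]
  have h2 : Real.exp (2 * B * Real.log lz) ≤ lz ^ N' := by
    calc Real.exp (2 * B * Real.log lz) ≤ Real.exp (N' * Real.log lz) :=
          Real.exp_le_exp.2 (mul_le_mul_of_nonneg_right hN hllz)
      _ = _ := by rw [Real.exp_nat_mul, Real.exp_log hlz0]
  have h3 : Real.exp (-(γ * d)) ≤ Real.exp (-γ * Δ) :=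
    Real.exp_le_exp.2 (by linarith [mul_le_mul_of_nonneg_left hΔd hγ])
  have hD : Real.exp L ≤ (2 * (k' * lk ^ 3)) ^ 2 * Real.exp Λ * lz ^ N' * Real.exp (-γ * Δ) := by
    rw [e]; gcongr
  have h6 : lk ^ 6 * lz ^ (4 + N') ≤ 2 ^ (4 + N') * (R * u) ^ (10 + N') := by
    calc lk ^ 6 * lz ^ (4 + N') ≤ lk ^ 6 * (2 * lk) ^ (4 + N') := by gcongr
      _ = 2 ^ (4 + N') * lk ^ (10 + N') := by rw [mul_pow]; ring
      _ ≤ _ := by gcongr
  calc 2 * (Real.exp L * M0 * lz ^ 4)
      ≤ 2 * (((2 * (k' * lk ^ 3)) ^ 2 * Real.exp Λ * lz ^ N' * Real.exp (-γ * Δ)) * M0 * lz ^ 4) := by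
        gcongr
    _ = 8 * Real.exp Λ * M0 * k' ^ 2 * (lk ^ 6 * lz ^ (4 + N')) * Real.exp (-γ * Δ) := by ring
    _ ≤ 8 * Real.exp Λ * M0 * (k0 * k) ^ 2 * (2 ^ (4 + N') * (R * u) ^ (10 + N'))
          * Real.exp (-γ * Δ) := by gcongr
    _ = _ := by rw [mul_pow, mul_pow]; ring

theorem jacobsthal_deficit_bound :
    ∃ c : ℝ, 0 < c ∧ ∃ C : ℝ, 0 < C ∧ ∃ N : ℕ, ∀ n : ℕ, 1 < n → ∃ m : ℕ,
      (m:ℝ) ≤ C * (n.primeFactors.card : ℝ) ^ 2
          * Real.log (3 * (n.primeFactors.card : ℝ)) ^ N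
          * Real.exp (-c * ∑ p ∈ (range (n.primeFactors.card + 1)).filter
              (fun p => p.Prime ∧ ¬ p ∣ n), Real.log p / p) ∧
        ∀ a : ℤ, ∃ i ∈ Set.Ico a (a + (m:ℤ)), IsCoprime i (n:ℤ) := by
  obtain ⟨c, hc⟩ := exists_good
  set Z1 := max c.z0 ⌈Real.exp (2 * c.L1)⌉₊ with hZ1
  set M0 : ℝ := (primorial Z1 : ℝ) with hM0
  have hM1 : 1 ≤ M0 := Nat.one_le_cast.2 (primorial_pos Z1)
  set Λ := 6 * (c.C + 1) / c.A with hΛ
  have hΛ0 : 0 < Λ := by have := hc.C_pos; have := hc.A_pos; positivity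
  have hK0 : 0 < c.K := by linarith [hc.K_one]
  have hl2 : 0 < Real.log 2 := Real.log_pos (by norm_num)
  set cV := Real.log 2 / (1 + c.K / Real.log 2) with hcV
  have hcV0 : 0 < cV := by positivity
  have hB0 := hc.B_pos
  set l0 : ℝ := 100 + c.z0 + |c.L1| + c.K + 2 * Λ + (8 * c.B) ^ 2 + 11 / cV with hl0
  have hl00 : 100 ≤ l0 := by
    have : 0 ≤ (c.z0:ℝ) := Nat.cast_nonneg _
    have : 0 ≤ |c.L1| := abs_nonneg _
    have : 0 ≤ (8 * c.B) ^ 2 := sq_nonneg _
    have : 0 ≤ 11 / cV := by positivity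
    linarith
  set k0 := Real.exp l0 with hk0
  have hk01 : 1 ≤ k0 := Real.one_le_exp (by linarith)
  set N' := ⌈2 * c.B⌉₊ with hN'
  set R := l0 + 1 with hR
  refine ⟨c.γ, hc.γ_pos,
    8 * Real.exp Λ * M0 * k0 ^ 2 * 2 ^ (4 + N') * R ^ (10 + N'), by positivity, 10 + N',
    fun n hn => ?_⟩
  set P := n.primeFactors with hPdef
  have hP : ∀ p ∈ P, p.Prime := fun p hp => Nat.prime_of_mem_primeFactors hp
  set k := P.card with hk
  have hk1 : 1 ≤ k := Finset.card_pos.2 (Nat.nonempty_primeFactors.2 hn)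
  have hk1' : (1:ℝ) ≤ k := by exact_mod_cast hk1
  set k' : ℝ := max (k:ℝ) k0 with hk'
  have hk'1 : 1 ≤ k' := le_max_of_le_left hk1'
  have hk'0 : 0 < k' := by linarith
  set lk := Real.log k' with hlk
  have hlk0 : l0 ≤ lk := by
    calc l0 = Real.log k0 := (Real.log_exp _).symm
      _ ≤ lk := Real.log_le_log (Real.exp_pos _) (le_max_right _ _)
  have hlkpos : 0 < lk := by linarith
  have hlk3 : 1 ≤ lk ^ 3 := one_le_pow₀ (by linarith)
  set z := ⌈k' * lk ^ 3⌉₊ with hz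
  have hzk : k' * lk ^ 3 ≤ (z:ℝ) := Nat.le_ceil _
  have hkl : k' ≤ k' * lk ^ 3 := le_mul_of_one_le_right hk'0.le hlk3
  have hzup : (z:ℝ) ≤ 2 * (k' * lk ^ 3) := by
    have := Nat.ceil_lt_add_one (show 0 ≤ k' * lk ^ 3 by positivity)
    linarith
  have hzpos : (0:ℝ) < z := by linarith
  set lz := Real.log z with hlz
  have hlz1 : lk ≤ lz := Real.log_le_log hk'0 (by linarith)
  have hlz2 : lz ≤ 2 * lk := by
    have h1 : lz ≤ Real.log (2 * (k' * lk ^ 3)) := Real.log_le_log hzpos hzup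
    rw [Real.log_mul (by norm_num) (by positivity), Real.log_mul hk'0.ne' (by positivity),
      Real.log_pow] at h1
    push_cast at h1
    have h2 : Real.log lk ≤ 2 * Real.sqrt lk := by
      have h := Real.log_le_sub_one_of_pos (Real.sqrt_pos.2 hlkpos)
      rw [Real.log_sqrt hlkpos.le] at h
      linarith
    have h3 := Real.mul_self_sqrt hlkpos.le
    have h4 : 10 ≤ Real.sqrt lk := Real.le_sqrt_of_sq_le (by linarith)
    have h5 := mul_le_mul_of_nonneg_right h4 (Real.sqrt_nonneg lk)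
    have h6 : Real.log 2 ≤ 1 := by linarith [Real.log_le_sub_one_of_pos (show (0:ℝ) < 2 by norm_num)]
    linarith
  have hlz100 : 100 ≤ lz := by linarith
  have hz0 : c.z0 < z := by
    have h1 : (c.z0:ℝ) < l0 := by
      have : 0 ≤ |c.L1| := abs_nonneg _
      have : 0 ≤ (8 * c.B) ^ 2 := sq_nonneg _
      have : 0 ≤ 11 / cV := by positivity
      linarith
    have h2 : lz ≤ (z:ℝ) - 1 := Real.log_le_sub_one_of_pos hzpos
    exact_mod_cast (show (c.z0:ℝ) < z by linarith)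
  have hz2 : 2 ≤ z := le_trans hc.z0_two hz0.le
  set d := deficit P z with hd
  have hd0 : 0 ≤ d := deficit_nonneg z
  have hd2 : d ≤ 2 * lz := by
    have h1 : d ≤ ∑ p ∈ primesIco 2 z, Real.log p / p := by
      refine Finset.sum_le_sum_of_subset_of_nonneg (fun p hp => ?_)
        (fun p _ _ => div_nonneg (Real.log_natCast_nonneg p) (by positivity))
      have h := mem_primesIco.1 (mem_filter.1 hp).1
      exact mem_primesIco.2 ⟨⟨h.2.two_le, h.1.2⟩, h.2⟩
    have h2 := (hc.mertens 2 z le_rfl hz2).2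
    rw [Nat.cast_ofNat] at h2
    have : 0 ≤ |c.L1| := abs_nonneg _
    have : 0 ≤ (8 * c.B) ^ 2 := sq_nonneg _
    have : 0 ≤ 11 / cV := by positivity
    linarith
  have hside : Λ ≤ lz / 2 ∧ (8 * c.B) ^ 2 ≤ lz ∧ c.L1 < lz ∧ 11 / cV ≤ lz := by
    have : 0 ≤ (c.z0:ℝ) := Nat.cast_nonneg _
    have : c.L1 ≤ |c.L1| := le_abs_self _
    have : 0 ≤ |c.L1| := abs_nonneg _
    have : 0 ≤ (8 * c.B) ^ 2 := sq_nonneg _
    have : 0 ≤ 11 / cV := by positivity
    refine ⟨by linarith, by linarith, by linarith, by linarith⟩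
  obtain ⟨hΛl, hBl, hL1l, hcVl⟩ := hside
  have hllz : 0 ≤ Real.log lz := Real.log_nonneg (by linarith)
  have hBlog : 2 * c.B * Real.log lz ≤ lz / 2 := by
    have h2 : Real.log lz ≤ 2 * Real.sqrt lz := by
      have h := Real.log_le_sub_one_of_pos (Real.sqrt_pos.2 (by linarith : 0 < lz))
      rw [Real.log_sqrt (by linarith)] at h
      linarith
    have h3 := Real.mul_self_sqrt (show 0 ≤ lz by linarith)
    have h4 : 8 * c.B ≤ Real.sqrt lz := Real.le_sqrt_of_sq_le hBl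
    have h5 := mul_le_mul_of_nonneg_right h4 (Real.sqrt_nonneg lz)
    have h6 := mul_le_mul_of_nonneg_left h2 hB0.le
    linarith
  have hγd : c.γ * d ≤ 1/700 * lz := by
    calc c.γ * d ≤ 1/1400 * (2 * lz) :=
          mul_le_mul hc.γ_small hd2 hd0 (by norm_num)
      _ = _ := by ring
  have hγd0 : 0 ≤ c.γ * d := mul_nonneg hc.γ_pos.le hd0
  set L := 2 * lz + Λ + 2 * c.B * Real.log lz - c.γ * d with hL
  have hBl0 : 0 ≤ 2 * c.B * Real.log lz := by positivity
  have hLlo : 199/100 * lz ≤ L := by linarith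
  have hLhi : L ≤ 3 * lz := by linarith
  set D := Real.exp L with hD
  have hD1 : 1 ≤ D := Real.one_le_exp (by linarith)
  have hlogD : Real.log D = L := Real.log_exp L
  set y := ⌈D * M0 * lz ^ 4⌉₊ with hy
  have hylo : D * M0 * lz ^ 4 ≤ (y:ℝ) := Nat.le_ceil _
  have hlz4 : 1 ≤ lz ^ 4 := one_le_pow₀ (by linarith)
  have hyup : (y:ℝ) ≤ 2 * (D * M0 * lz ^ 4) := by
    have h1 : 1 ≤ D * M0 * lz ^ 4 :=
      one_le_mul_of_one_le_of_one_le (one_le_mul_of_one_le_of_one_le hD1 hM1) hlz4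
    have := Nat.ceil_lt_add_one (show 0 ≤ D * M0 * lz ^ 4 by positivity)
    linarith
  have hy0 : 0 < (y:ℝ) := lt_of_lt_of_le (by positivity) hylo
  refine ⟨y, ?_, fun a => ?_⟩
  · -- the size of `y`
    set Δ := ∑ p ∈ (range (k + 1)).filter (fun p => p.Prime ∧ ¬ p ∣ n), Real.log p / p with hΔ
    have hΔd : Δ ≤ d := by
      refine Finset.sum_le_sum_of_subset_of_nonneg (fun p hp => ?_)
        (fun p _ _ => div_nonneg (Real.log_natCast_nonneg p) (by positivity))
      simp only [mem_filter, mem_range] at hp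
      refine mem_filter.2 ⟨mem_primesIco.2 ⟨⟨Nat.zero_le _, ?_⟩, hp.2.1⟩,
        fun h => hp.2.2 (Nat.dvd_of_mem_primeFactors h)⟩
      have h1 : (k:ℝ) < z := by
        have : k' < k' * lk ^ 3 := by
          have : 1 < lk ^ 3 := one_lt_pow₀ (by linarith) (by norm_num)
          exact lt_mul_of_one_lt_right hk'0 this
        linarith [le_max_left (k:ℝ) k0]
      have h2 : k < z := by exact_mod_cast h1
      omega
    have hk'k : k' ≤ k0 * k := max_le (le_mul_of_one_le_left (by linarith) hk01)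
      (le_mul_of_one_le_right (by linarith) hk1')
    set u := Real.log (3 * (k:ℝ)) with hu
    have hu1 : 1 ≤ u := by
      rw [hu, Real.le_log_iff_exp_le (by linarith)]
      linarith [Real.exp_one_lt_d9]
    have hlku : lk ≤ R * u := by
      have h1 : lk ≤ Real.log (k0 * k) := Real.log_le_log hk'0 hk'k
      rw [Real.log_mul (by positivity) (by positivity), hk0, Real.log_exp] at h1
      have h2 : Real.log (k:ℝ) ≤ u := Real.log_le_log (by linarith) (by linarith)
      have h3 : l0 ≤ l0 * u := le_mul_of_one_le_right (by linarith) hu1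
      rw [hR]
      linarith
    exact hyup.trans (size_bound hc.γ_pos.le (Nat.le_ceil _) hM1 hllz hzpos hlz hzup
      (by linarith) hlz2 hlku hk'0.le hk'k hΔd hL)
  · -- positivity of the count
    have hM : ∀ z' : ℕ, (z' ≤ c.z0 ∨ Real.log z' ≤ 2 * c.L1) →
        ((∏ p ∈ P.filter (· < z'), p : ℕ) : ℝ) ≤ M0 := by
      intro z' h'
      have hz' : z' ≤ Z1 := by
        rcases h' with h' | h'
        · exact h'.trans (le_max_left _ _)
        · rcases Nat.eq_zero_or_pos z' with rfl | hpos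
          · exact Nat.zero_le _
          · have : (z':ℝ) ≤ ⌈Real.exp (2 * c.L1)⌉₊ := by
              rw [← Real.exp_log (show (0:ℝ) < z' by exact_mod_cast hpos)]
              exact (Real.exp_le_exp.2 h').trans (Nat.le_ceil _)
            exact le_max_of_le_right (by exact_mod_cast this)
      rw [hM0]
      refine Nat.cast_le.2 ?_
      unfold primorial
      refine Finset.prod_le_prod_of_subset_of_one_le' (fun p hp => ?_)
        (fun p hp _ => (mem_filter.1 hp).2.one_le)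
      obtain ⟨hp1, hp2⟩ := mem_filter.1 hp
      exact mem_filter.2 ⟨mem_range.2 (by omega), hP p hp1⟩
    refine choice_count hc hn hM1 hM hz2 hcV hΛ hlz100 hΛl hcVl hLlo hLhi le_rfl ?_ ?_ a
    · calc ((k:ℝ) * (lz / 2) ^ 3 : ℝ) ≤ k' * lk ^ 3 := by
            refine mul_le_mul (le_max_left _ _) ?_ (by positivity) hk'0.le
            exact pow_le_pow_left₀ (by linarith) (by linarith) 3
        _ ≤ (z:ℝ) := hzk
    · calc (k:ℝ) ≤ k' := le_max_left _ _
        _ = Real.exp lk := (Real.exp_log hk'0).symm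
        _ ≤ Real.exp L := Real.exp_le_exp.2 (by linarith)

end Vale.Agent.P013
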