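import Vale.Agent.P013.Step

/-! The induction giving both linear sieve bounds with a gain from missing primes (P013). -/

open Finset Real

namespace Vale.Agent.P013

theorem errTerm_nonneg {c : Cst} (hc : c.Good) {D : ℝ} (hD : 1 ≤ D) (z : ℕ) :
    0 ≤ errTerm c D z :=
  div_nonneg (mul_nonneg hc.C_pos.le (Real.exp_pos _).le) (Real.log_nonneg hD)

theorem log_div_ge_zero {D : ℝ} (hD : 0 < D) {p : ℕ} (hp : 0 < p)
    (h : Real.log p ≤ Real.log D) : 1 ≤ D / p := by
  have hp0 : (0:ℝ) < p := by exact_mod_cast hp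
  rw [one_le_div hp0]
  exact (Real.log_le_log_iff hp0 hD).1 h

theorem sum_stepSet_eq (c : Cst) (P : Finset ℕ) (z : ℕ) (V : ℝ) (hV : V ≠ 0) (g b : ℕ → ℝ)
    (hg : ∀ p ∈ P, g p = Vp P p / (p:ℝ)) (hz : Vp P z = V) :
    ∑ p ∈ P.filter (· < z), g p * (if c.z0 < p then b p else 0)
      = V * ∑ p ∈ stepSet c P z, wt P z p * b p := by
  rw [Finset.mul_sum, stepSet]
  rw [show P.filter (fun p => c.z0 < p ∧ p < z) = (P.filter (· < z)).filter (fun p => c.z0 < p) by
    rw [Finset.filter_filter]; exact Finset.filter_congr (fun x _ => and_comm)]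
  rw [Finset.sum_filter (fun p => c.z0 < p)]
  refine Finset.sum_congr rfl (fun p hp => ?_)
  split_ifs with h
  · rw [hg p (mem_filter.1 hp).1, wt, hz]
    field_simp
  · ring

/-- Both sieve bounds. -/
theorem sieve_bounds {c : Cst} (hc : c.Good) {P : Finset ℕ} (hP : ∀ p ∈ P, p.Prime)
    (a : ℤ) (y : ℕ) {M0 : ℝ} (hM1 : 1 ≤ M0)
    (hM : ∀ z : ℕ, (z ≤ c.z0 ∨ Real.log z ≤ 2 * c.L1) →
      ((∏ p ∈ P.filter (· < z), p : ℕ) : ℝ) ≤ M0) :
    ∀ (z m : ℕ) (D : ℝ), 1 ≤ D → 0 < m → (∀ q ∈ P, q < z → Nat.Coprime m q) →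
      (Real.log z ≤ 2 * Real.log D →
        (siftCount P a y m z : ℝ) ≤ (y:ℝ) / m * Vp P z
          * (c.F (ell c P D z / Real.log z) + errTerm c D z) + smoothCount (M0 * D) z) ∧
      (Real.log z ≤ 55/100 * Real.log D →
        (c.z0 < z → c.L1 < Real.log D → 2 ≤ ell c P D z / Real.log z) →
        (y:ℝ) / m * Vp P z * (c.f (ell c P D z / Real.log z) - errTerm c D z)
          - smoothCount (M0 * D) z ≤ (siftCount P a y m z : ℝ)) := by
  intro z
  induction z using Nat.strong_induction_on with
  | _ z IH =>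
  intro m D hD hm hcop
  have hD0 : 0 < D := by linarith
  have hVz := Vp_pos hP z
  have hym : 0 ≤ (y:ℝ) / m := by positivity
  have hX : 1 ≤ M0 * D := one_le_mul_of_one_le_of_one_le hM1 hD
  -- exact evaluation for bounded parameters
  have exact' : ∀ (z' m' : ℕ) (D' : ℝ), 1 ≤ D' → 0 < m' →
      (∀ q ∈ P, q < z' → Nat.Coprime m' q) → (z' ≤ c.z0 ∨ Real.log z' ≤ 2 * c.L1) →
      |(siftCount P a y m' z' : ℝ) - (y:ℝ) / m' * Vp P z'| ≤ smoothCount (M0 * D') z' := by
    intro z' m' D' hD' hm' hc' hsmall
    refine (siftCount_exact hP a y z' m' hm' hc').trans ?_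
    have h := two_pow_le_smoothCount hP (X := M0 * D') (z := z')
      ((hM z' hsmall).trans (le_mul_of_one_le_right (by linarith) hD'))
    exact_mod_cast h
  have base : (z ≤ c.z0 ∨ Real.log D ≤ c.L1) → Real.log z ≤ 2 * Real.log D →
      |(siftCount P a y m z : ℝ) - (y:ℝ) / m * Vp P z| ≤ smoothCount (M0 * D) z := by
    intro h hlz
    refine exact' z m D hD hm hcop ?_
    rcases h with h | h
    · exact Or.inl h
    · exact Or.inr (by linarith)
  have hident : (siftCount P a y m 0 : ℝ) = siftCount P a y m z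
      + ∑ p ∈ P.filter (· < z), (siftCount P a y (m * p) p : ℝ) := by
    exact_mod_cast siftCount_identity hP a y m z hcop
  have h0 := abs_le.1 (siftCount_zero_bounds (P := P) a y m hm)
  have hsum1 : ∑ p ∈ P.filter (· < z), Vp P p / (p:ℝ) = 1 - Vp P z := by
    have h := Vp_sum_identity (P := P) (Nat.zero_le z)
    simpa [Vp_zero] using h
  have hrec : 1 + ∑ p ∈ P.filter (· < z), (smoothCount (M0 * (D / p)) p : ℝ)
      ≤ smoothCount (M0 * D) z := by
    simp only [← mul_div_assoc]
    exact smoothCount_recursion hX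
      (fun p hp => ⟨hP p (mem_filter.1 hp).1, (mem_filter.1 hp).2⟩)
  constructor
  · intro hlz
    by_cases hb : z ≤ c.z0 ∨ Real.log D ≤ c.L1
    · have h := (abs_le.1 (base hb hlz)).2
      have h1 : 1 ≤ c.F (ell c P D z / Real.log z) + errTerm c D z := by
        linarith [hc.F_gt (ell c P D z / Real.log z), errTerm_nonneg hc hD z]
      have h2 := mul_le_mul_of_nonneg_left h1 (mul_nonneg hym hVz.le)
      linarith
    · push Not at hb
      obtain ⟨hz0, hL⟩ := hb
      have hstep := step_upper hc hP hD0 hz0 hL hlz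
      obtain ⟨-, -, -, -, h8⟩ := hc.large _ hL
      set b : ℕ → ℝ := fun p => if c.z0 < p then upperTerm c P D p else 0 with hb'
      have hchild : ∀ p ∈ P.filter (· < z),
          (y:ℝ) / m * (Vp P p / p) * (1 - b p) - smoothCount (M0 * (D / p)) p
            ≤ (siftCount P a y (m * p) p : ℝ) := by
        intro p hp
        obtain ⟨hpP, hpz⟩ := mem_filter.1 hp
        have hp0 := (hP p hpP).pos
        have hlp0 := Real.log_natCast_nonneg p
        have hcc := coprime_child hP hpP hpz hcop
        have e : (y:ℝ) / m * (Vp P p / p) = (y:ℝ) / ((m * p : ℕ) : ℝ) * Vp P p := by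
          push_cast; field_simp
        rw [e]
        by_cases hsmall : c.z0 < p
        · simp only [hb', if_pos hsmall, upperTerm]
          split_ifs with hinc
          · have hlD : Real.log (D / p) = Real.log D - Real.log p := log_child hD0 hp0
            have hD' : 1 ≤ D / p := log_div_ge_zero hD0 hp0 (by linarith [hinc.1])
            have h := (IH p hpz (m * p) (D / p) hD' (Nat.mul_pos hm hp0) hcc).2
              (by linarith [hinc.1]) (fun _ _ => hinc.2)
            refine le_trans (le_of_eq ?_) h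
            rw [tauVal]; ring
          · rw [sub_self, mul_zero]
            have : (0:ℝ) ≤ smoothCount (M0 * (D / p)) p := Nat.cast_nonneg _
            linarith [(Nat.cast_nonneg (siftCount P a y (m * p) p) : (0:ℝ) ≤ _)]
        · simp only [hb', if_neg hsmall, sub_zero, mul_one]
          push Not at hsmall
          have hlp : Real.log p ≤ Real.log c.z0 :=
            Real.log_le_log (by exact_mod_cast hp0) (by exact_mod_cast hsmall)
          have hD' : 1 ≤ D / p := log_div_ge_zero hD0 hp0 (by linarith [hc.L1_z0])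
          linarith [(abs_le.1 (exact' p (m * p) (D / p) hD' (Nat.mul_pos hm hp0) hcc (Or.inl hsmall))).1]
      have hs := Finset.sum_le_sum hchild
      rw [Finset.sum_sub_distrib] at hs
      have e2 : ∑ p ∈ P.filter (· < z), (y:ℝ) / m * (Vp P p / p) * (1 - b p)
          = (y:ℝ) / m * (1 - Vp P z - Vp P z * ∑ p ∈ stepSet c P z, wt P z p * upperTerm c P D p) := by
        rw [← sum_stepSet_eq c P z _ hVz.ne' (fun p => Vp P p / (p:ℝ)) (upperTerm c P D)
          (fun _ _ => rfl) rfl, ← hsum1, ← Finset.sum_sub_distrib, Finset.mul_sum]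
        refine Finset.sum_congr rfl (fun p _ => ?_)
        simp only [hb']; ring
      rw [e2] at hs
      have hmul := mul_le_mul_of_nonneg_left hstep (mul_nonneg hym hVz.le)
      linarith [h0.2]
  · intro hlz hs2
    have hlz2 : Real.log z ≤ 2 * Real.log D := by linarith [Real.log_nonneg hD]
    by_cases hb : z ≤ c.z0 ∨ Real.log D ≤ c.L1
    · have h := (abs_le.1 (base hb hlz2)).1
      have h1 : c.f (ell c P D z / Real.log z) - errTerm c D z ≤ 1 := by
        linarith [hc.f_lt (ell c P D z / Real.log z), errTerm_nonneg hc hD z]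
      have h2 := mul_le_mul_of_nonneg_left h1 (mul_nonneg hym hVz.le)
      linarith
    · push Not at hb
      obtain ⟨hz0, hL⟩ := hb
      have hstep := step_lower hc hP hD0 hz0 hL hlz (hs2 hz0 hL)
      obtain ⟨-, -, -, -, h8⟩ := hc.large _ hL
      set B' : ℕ → ℝ := fun p => c.F (tauVal c P D p) - 1 + errTerm c (D / p) p with hB'
      set b : ℕ → ℝ := fun p => if c.z0 < p then B' p else 0 with hb'
      have hchild : ∀ p ∈ P.filter (· < z), (siftCount P a y (m * p) p : ℝ)
          ≤ (y:ℝ) / m * (Vp P p / p) * (1 + b p) + smoothCount (M0 * (D / p)) p := by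
        intro p hp
        obtain ⟨hpP, hpz⟩ := mem_filter.1 hp
        have hp0 := (hP p hpP).pos
        have hcc := coprime_child hP hpP hpz hcop
        have hlp : Real.log p ≤ Real.log z :=
          Real.log_le_log (by exact_mod_cast hp0) (by exact_mod_cast hpz.le)
        have hlD : Real.log (D / p) = Real.log D - Real.log p := log_child hD0 hp0
        have hD' : 1 ≤ D / p := log_div_ge_zero hD0 hp0 (by linarith)
        have e : (y:ℝ) / m * (Vp P p / p) = (y:ℝ) / ((m * p : ℕ) : ℝ) * Vp P p := by
          push_cast; field_simp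
        rw [e]
        by_cases hsmall : c.z0 < p
        · simp only [hb', if_pos hsmall, hB']
          have h := (IH p hpz (m * p) (D / p) hD' (Nat.mul_pos hm hp0) hcc).1 (by linarith)
          refine le_trans h (le_of_eq ?_)
          rw [tauVal]; ring
        · simp only [hb', if_neg hsmall, add_zero, mul_one]
          push Not at hsmall
          linarith [(abs_le.1 (exact' p (m * p) (D / p) hD' (Nat.mul_pos hm hp0) hcc (Or.inl hsmall))).2]
      have hs := Finset.sum_le_sum hchild
      rw [Finset.sum_add_distrib] at hs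
      have e2 : ∑ p ∈ P.filter (· < z), (y:ℝ) / m * (Vp P p / p) * (1 + b p)
          = (y:ℝ) / m * (1 - Vp P z + Vp P z * ∑ p ∈ stepSet c P z, wt P z p * B' p) := by
        rw [← sum_stepSet_eq c P z _ hVz.ne' (fun p => Vp P p / (p:ℝ)) B'
          (fun _ _ => rfl) rfl, ← hsum1, ← Finset.sum_add_distrib, Finset.mul_sum]
        refine Finset.sum_congr rfl (fun p _ => ?_)
        simp only [hb']; ring
      rw [e2] at hs
      have hmul := mul_le_mul_of_nonneg_left hstep (mul_nonneg hym hVz.le)
      linarith [h0.1]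

end Vale.Agent.P013
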