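import Vale.Agent.P013.Main

/-! Vaughan's suggested bound for moduli with few small prime factors (P013). -/

open Finset Real

namespace Vale.Agent.P013

theorem exists_coprime_of_count' {n : ℕ} (hn : 0 < n) (a : ℤ) (y z : ℕ)
    (h : ∑ p ∈ n.primeFactors.filter (fun p => z ≤ p),
      (siftCount n.primeFactors a y p z : ℝ) < (siftCount n.primeFactors a y 1 z : ℝ)) :
    ∃ i ∈ Set.Ico a (a + (y:ℤ)), IsCoprime i (n:ℤ) := by
  set P := n.primeFactors
  set G := (Finset.Ico a (a + y)).filter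
    (fun i : ℤ => ((1:ℕ):ℤ) ∣ i ∧ ∀ p ∈ P, p < z → ¬ (p:ℤ) ∣ i) with hG
  set Bd := (P.filter (fun p => z ≤ p)).biUnion
    (fun p => (Finset.Ico a (a + y)).filter
      (fun i : ℤ => (p:ℤ) ∣ i ∧ ∀ q ∈ P, q < z → ¬ (q:ℤ) ∣ i)) with hBd
  have hlt : (Bd.card : ℝ) < G.card := by
    refine lt_of_le_of_lt ?_ h
    have := Finset.card_biUnion_le (s := P.filter (fun p => z ≤ p))
      (t := fun p => (Finset.Ico a (a + y)).filter
        (fun i : ℤ => (p:ℤ) ∣ i ∧ ∀ q ∈ P, q < z → ¬ (q:ℤ) ∣ i))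
    unfold siftCount
    exact_mod_cast this
  obtain ⟨i, hiG, hiB⟩ := Finset.not_subset.1
    (fun hsub : G ⊆ Bd => absurd (Finset.card_le_card hsub) (not_le.2 (by exact_mod_cast hlt)))
  obtain ⟨hiI, -, hfree⟩ := mem_filter.1 hiG
  refine ⟨i, by simpa using hiI, ?_⟩
  rw [Int.isCoprime_iff_nat_coprime]
  by_contra hnc
  obtain ⟨p, hp, hpi, hpn⟩ := Nat.Prime.not_coprime_iff_dvd.1 hnc
  simp only [Int.natAbs_natCast] at hpn
  have hpP : p ∈ P := Nat.mem_primeFactors.2 ⟨hp, hpn, hn.ne'⟩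
  have hdvd : (p:ℤ) ∣ i := Int.natCast_dvd.2 hpi
  rcases lt_or_ge p z with h' | h'
  · exact hfree p hpP h' hdvd
  · exact hiB (Finset.mem_biUnion.2 ⟨p, mem_filter.2 ⟨hpP, h'⟩, mem_filter.2 ⟨hiI, hdvd, hfree⟩⟩)

theorem siftCount_le_zero (P : Finset ℕ) (a : ℤ) (y m z : ℕ) :
    siftCount P a y m z ≤ siftCount P a y m 0 := by
  refine Finset.card_le_card (fun i hi => ?_)
  simp only [mem_filter] at hi ⊢
  exact ⟨hi.1, hi.2.1, fun q _ hq => absurd hq (Nat.not_lt_zero q)⟩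

/-- Counting step for sparse prime sets. -/
theorem sparse_count {c : Cst} (hc : c.Good) {n : ℕ} (hn : 1 < n) {M0 : ℝ} (hM1 : 1 ≤ M0)
    (hM : ∀ z' : ℕ, (z' ≤ c.z0 ∨ Real.log z' ≤ 2 * c.L1) →
      ((∏ p ∈ n.primeFactors.filter (· < z'), p : ℕ) : ℝ) ≤ M0)
    {w Z : ℕ} (hw : c.z0 < w) (hwZ : w ≤ Z) {L lk ρ cV : ℝ}
    (hcV : cV = Real.log 2 / (1 + c.K / Real.log 2))
    (hL : Real.log Z + 4 * Real.log w ≤ L) (hL1 : c.L1 < Real.log w)
    (hCL : 2 * c.C ≤ c.f 3 * Real.log w) (hC1 : c.C ≤ Real.log w)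
    (hρ : ∑ p ∈ n.primeFactors.filter (fun p => w ≤ p ∧ p < Z), 1/(p:ℝ) ≤ ρ)
    (hρ1 : ρ * (c.F 3 + 1) ≤ c.f 3 / 4)
    (hlk : Real.log w ≤ lk) (hlk1 : 1 ≤ lk) (hlkbig : 24 ≤ cV * c.f 3 * lk)
    (hZ : (n.primeFactors.card : ℝ) * lk ^ 2 ≤ (Z:ℝ))
    (hkL : (n.primeFactors.card : ℝ) ≤ Real.exp L) (a : ℤ) :
    ∃ i ∈ Set.Ico a (a + (⌈Real.exp L * M0 * lk ^ 4⌉₊ : ℤ)), IsCoprime i (n:ℤ) := by
  set P := n.primeFactors with hPdef
  have hP : ∀ p ∈ P, p.Prime := fun p hp => Nat.prime_of_mem_primeFactors hp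
  set D := Real.exp L with hD
  set y := ⌈D * M0 * lk ^ 4⌉₊
  have hylo : D * M0 * lk ^ 4 ≤ (y:ℝ) := Nat.le_ceil _
  have hw2 : 2 ≤ w := le_trans hc.z0_two hw.le
  set lw := Real.log w with hlw
  have hlw0 : 0 < lw := Real.log_pos (by exact_mod_cast hw2)
  have hZ0 : (0:ℝ) < Z := by exact_mod_cast (by omega : 0 < Z)
  have hlZ : lw ≤ Real.log Z := Real.log_le_log (by positivity) (by exact_mod_cast hwZ)
  have hy0 : 0 < (y:ℝ) := lt_of_lt_of_le (by positivity) hylo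
  have hlogD : Real.log D = L := Real.log_exp L
  have hD1 : 1 ≤ D := Real.one_le_exp (by linarith)
  have hC := hc.C_pos
  have hf3 : 0 < c.f 3 := by
    have h := (hc.f_near 1 zero_le_one le_rfl).1
    rw [show (2:ℝ) + 1 = 3 by norm_num] at h
    linarith [hc.A_pos]
  have hρ0 : 0 ≤ ρ := le_trans (Finset.sum_nonneg (fun p _ => by positivity)) hρ
  refine exists_coprime_of_count' (by omega) a y w ?_
  have hVw := Vp_pos hP w
  have hkey : ∀ D' : ℝ, 4 * lw ≤ Real.log D' →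
      3 ≤ ell c P D' w / lw ∧ errTerm c D' w ≤ c.C / (4 * lw) := by
    intro D' hD'
    obtain ⟨-, -, -, hell, -, -⟩ := regime (P := P) (D := D') hc hw (by linarith) (by linarith)
    rw [abs_le] at hell
    constructor
    · rw [le_div_iff₀ hlw0]; linarith
    · rw [errTerm]
      refine div_le_div₀ hC.le ?_ (by linarith) hD'
      refine mul_le_of_le_one_right hC.le (Real.exp_le_one_iff.2 (neg_nonpos.2 ?_))
      exact div_nonneg (by linarith) hlw0.le
  obtain ⟨hs, herr⟩ := hkey D (by rw [hlogD]; linarith)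
  have hCw : c.C / (4 * lw) ≤ c.f 3 / 8 := by
    rw [div_le_div_iff₀ (by positivity) (by norm_num)]
    linarith
  have hlow := (sieve_bounds hc hP a y hM1 hM w 1 D hD1 one_pos
    (fun q _ _ => Nat.coprime_one_left q)).2 (by rw [hlogD]; linarith) (fun _ _ => by linarith)
  have hmain : (y:ℝ) * Vp P w * (7/8 * c.f 3) - M0 * D ≤ (siftCount P a y 1 w : ℝ) := by
    refine le_trans ?_ hlow
    rw [Nat.cast_one, div_one]
    have h1 : 7/8 * c.f 3 ≤ c.f (ell c P D w / lw) - errTerm c D w := by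
      linarith [hc.f_mono hs]
    have h2 := mul_le_mul_of_nonneg_left h1 (mul_nonneg hy0.le hVw.le)
    have h3 := smoothCount_le (show 0 ≤ M0 * D by positivity) w
    linarith
  have hmid : ∑ p ∈ P.filter (fun p => w ≤ p ∧ p < Z), (siftCount P a y p w : ℝ)
      ≤ ((y:ℝ) * Vp P w * (c.F 3 + 1) + M0 * D) * ρ := by
    refine le_trans (Finset.sum_le_sum (g := fun p : ℕ =>
      ((y:ℝ) * Vp P w * (c.F 3 + 1) + M0 * D) * (1/(p:ℝ))) ?_) ?_
    · intro p hp
      obtain ⟨hpP, hwp, hpZ⟩ := mem_filter.1 hp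
      have hp0 := (hP p hpP).pos
      have hlp : Real.log p ≤ Real.log Z :=
        Real.log_le_log (by exact_mod_cast hp0) (by exact_mod_cast hpZ.le)
      have hlD : Real.log (D / p) = L - Real.log p := by
        rw [log_child (by positivity) hp0, hlogD]
      obtain ⟨hsp, herrp⟩ := hkey (D / p) (by rw [hlD]; linarith)
      have hD' : 1 ≤ D / p := log_div_ge_zero (by positivity) hp0 (by rw [hlogD]; linarith)
      have h := (sieve_bounds hc hP a y hM1 hM w p (D / p) hD' hp0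
        (fun q hq hqw => (Nat.coprime_primes (hP p hpP) (hP q hq)).2 (by omega))).1
        (by rw [hlD]; linarith)
      refine h.trans ?_
      have h1 : c.F (ell c P (D / p) w / lw) + errTerm c (D / p) w ≤ c.F 3 + 1 := by
        have : c.C / (4 * lw) ≤ 1 := by rw [div_le_one (by positivity)]; linarith
        linarith [hc.F_anti hsp]
      have h2 := mul_le_mul_of_nonneg_left h1
        (show 0 ≤ (y:ℝ) / p * Vp P w by positivity)
      have h3 := smoothCount_le (show 0 ≤ M0 * (D / p) by positivity) w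
      calc (y:ℝ) / p * Vp P w * (c.F (ell c P (D / p) w / lw) + errTerm c (D / p) w)
            + smoothCount (M0 * (D / p)) w
          ≤ (y:ℝ) / p * Vp P w * (c.F 3 + 1) + M0 * (D / p) := add_le_add h2 h3
        _ = _ := by ring
    · rw [← Finset.mul_sum]
      refine mul_le_mul_of_nonneg_left hρ ?_
      have : 0 ≤ c.F 3 + 1 := by linarith [hc.F_gt 3]
      positivity
  have hbig : ∑ p ∈ P.filter (fun p => Z ≤ p), (siftCount P a y p w : ℝ)
      ≤ (y:ℝ) / lk ^ 2 + (y:ℝ) / lk ^ 4 := by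
    have h1 : ∀ p ∈ P.filter (fun p => Z ≤ p), (siftCount P a y p w : ℝ) ≤ (y:ℝ) / Z + 1 := by
      intro p hp
      obtain ⟨hpP, hzp⟩ := mem_filter.1 hp
      have h := (abs_le.1 (siftCount_zero_bounds (P := P) a y p (hP p hpP).pos)).2
      have h' : (y:ℝ) / p ≤ (y:ℝ) / Z :=
        div_le_div_of_nonneg_left hy0.le hZ0 (by exact_mod_cast hzp)
      have h'' : (siftCount P a y p w : ℝ) ≤ siftCount P a y p 0 := by
        exact_mod_cast siftCount_le_zero P a y p w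
      linarith
    refine (Finset.sum_le_card_nsmul _ _ _ h1).trans ?_
    rw [nsmul_eq_mul]
    have hcard : ((P.filter (fun p => Z ≤ p)).card : ℝ) ≤ P.card := by
      exact_mod_cast Finset.card_filter_le _ _
    refine (mul_le_mul_of_nonneg_right hcard (by positivity)).trans ?_
    rw [mul_add, mul_one]
    refine add_le_add ?_ ?_
    · rw [← mul_div_assoc, div_le_div_iff₀ hZ0 (by positivity)]
      have := mul_le_mul_of_nonneg_left hZ hy0.le
      linarith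
    · rw [le_div_iff₀ (by positivity)]
      refine le_trans ?_ hylo
      exact mul_le_mul_of_nonneg_right (hkL.trans (le_mul_of_one_le_right (by positivity) hM1))
        (by positivity)
  have hsplit : ∑ p ∈ P.filter (fun p => w ≤ p), (siftCount P a y p w : ℝ)
      = ∑ p ∈ P.filter (fun p => w ≤ p ∧ p < Z), (siftCount P a y p w : ℝ)
        + ∑ p ∈ P.filter (fun p => Z ≤ p), (siftCount P a y p w : ℝ) := by
    rw [← Finset.sum_union]
    · refine Finset.sum_congr ?_ (fun _ _ => rfl)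
      ext x
      simp only [mem_filter, mem_union]
      constructor
      · rintro ⟨hx, h⟩
        rcases lt_or_ge x Z with h' | h'
        · exact Or.inl ⟨hx, h, h'⟩
        · exact Or.inr ⟨hx, h'⟩
      · rintro (⟨hx, h, -⟩ | ⟨hx, h⟩)
        · exact ⟨hx, h⟩
        · exact ⟨hx, hwZ.trans h⟩
    · refine Finset.disjoint_left.2 (fun x hx hx' => ?_)
      simp only [mem_filter] at hx hx'
      omega
  have hV : cV / lk ≤ Vp P w := by
    have h := Vp_ratio_le hP (K := c.K) (fun u v hu hv => (hc.mertens u v hu hv).1) le_rfl hw2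
    rw [Nat.cast_ofNat] at h
    have h2 : Vp P 2 = 1 := by
      unfold Vp
      refine Finset.prod_eq_one (fun p hp => ?_)
      have := (hP p (mem_filter.1 hp).1).two_le
      have := (mem_filter.1 hp).2
      omega
    rw [h2] at h
    have hl2 : 0 < Real.log 2 := Real.log_pos (by norm_num)
    have hK0 : 0 < c.K := by linarith [hc.K_one]
    have hcV0 : 0 < cV := by rw [hcV]; positivity
    have he : Real.exp (-(∑ g ∈ miss P 2 w, 1/(g:ℝ))) ≤ 1 :=
      Real.exp_le_one_iff.2 (neg_nonpos.2 (Finset.sum_nonneg (fun g _ => by positivity)))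
    have h3 : 1 / Vp P w ≤ lw / cV := by
      refine h.trans ((mul_le_of_le_one_right (by positivity) he).trans (le_of_eq ?_))
      rw [hcV, ← hlw]; field_simp
    have h3' : 1 / Vp P w ≤ lk / cV := h3.trans (div_le_div_of_nonneg_right hlk hcV0.le)
    rw [div_le_div_iff₀ hVw hcV0, one_mul] at h3'
    rw [div_le_iff₀ (by linarith)]
    linarith
  rw [hsplit]
  have h4 : M0 * D ≤ (y:ℝ) / lk ^ 4 := by
    rw [le_div_iff₀ (by positivity)]; linarith
  have hρle : ρ ≤ c.f 3 := by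
    have h := mul_le_mul_of_nonneg_left (show (1:ℝ) ≤ c.F 3 + 1 by linarith [hc.F_gt 3]) hρ0
    linarith
  have h5 : M0 * D * ρ ≤ (y:ℝ) / lk ^ 4 := by
    have : c.f 3 ≤ 1 := (hc.f_lt 3).le
    exact (mul_le_of_le_one_right (by positivity) (by linarith)).trans h4
  have h6 : (y:ℝ) * Vp P w * (c.F 3 + 1) * ρ ≤ (y:ℝ) * Vp P w * (c.f 3 / 4) := by
    have := mul_le_mul_of_nonneg_left hρ1 (show 0 ≤ (y:ℝ) * Vp P w by positivity)
    linarith
  have h7 : (y:ℝ) / lk ^ 4 ≤ (y:ℝ) / lk ^ 2 :=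
    div_le_div_of_nonneg_left hy0.le (by positivity) (pow_le_pow_right₀ hlk1 (by norm_num))
  have h8 : (y:ℝ) / lk ^ 2 * 5 < (y:ℝ) * (cV / lk) * (5/8 * c.f 3) := by
    have e : (y:ℝ) * (cV / lk) * (5/8 * c.f 3) - (y:ℝ) / lk ^ 2 * 5
        = (y:ℝ) * (5/8 * (cV * c.f 3 * lk) - 5) / lk ^ 2 := by
      field_simp
    have : 0 < (y:ℝ) * (5/8 * (cV * c.f 3 * lk) - 5) / lk ^ 2 :=
      div_pos (mul_pos hy0 (by linarith)) (by positivity)
    linarith
  have h9 := mul_le_mul_of_nonneg_right (mul_le_mul_of_nonneg_left hV hy0.le)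
    (show 0 ≤ 5/8 * c.f 3 by positivity)
  linarith

theorem sparse_size {k θ ε ε1 lk lw M0 L : ℝ} {w Z : ℕ} (hk1 : 1 ≤ k) (hkpos : 0 < k)
    (hε10 : 0 < ε1) (hε1 : ε1 ≤ ε / 12) (hθε : 4 * θ ≤ ε / 2) (hlk : lk = Real.log k)
    (hlk1 : 1 ≤ lk) (hM1 : 1 ≤ M0) (hZpos : (0:ℝ) < Z) (hwpos : (0:ℝ) < w)
    (hZhi : (Z:ℝ) ≤ 2 * (k * lk ^ 2)) (hwhi : (w:ℝ) ≤ 2 * k ^ θ) (hlw : lw = Real.log w)
    (hL : L = Real.log Z + 4 * lw) (hL0 : 0 ≤ L) :
    (⌈Real.exp L * M0 * lk ^ 4⌉₊ : ℝ) ≤ 2 * 32 * (2:ℝ) ^ 4 * M0 * (1 / ε1) ^ 6 * k ^ (1 + ε) := by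
  have hD : Real.exp L = (Z:ℝ) * (w:ℝ) ^ 4 := by
    rw [hL, hlw, Real.exp_add, Real.exp_log hZpos,
      show (4:ℝ) * Real.log w = ((4:ℕ):ℝ) * Real.log w by norm_num, Real.exp_nat_mul, Real.exp_log hwpos]
  have hD1 : 1 ≤ Real.exp L * M0 * lk ^ 4 := by
    exact one_le_mul_of_one_le_of_one_le
      (one_le_mul_of_one_le_of_one_le (Real.one_le_exp hL0) hM1) (one_le_pow₀ hlk1)
  have hce := Nat.ceil_lt_add_one (show 0 ≤ Real.exp L * M0 * lk ^ 4 by positivity)
  have h1 : lk ^ 6 ≤ (1 / ε1) ^ 6 * k ^ (ε / 2) := by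
    have h := Real.log_le_rpow_div hkpos.le hε10
    rw [← hlk] at h
    calc lk ^ 6 ≤ (k ^ ε1 / ε1) ^ 6 := pow_le_pow_left₀ (by linarith) h 6
      _ = (1 / ε1) ^ 6 * k ^ (ε1 * (6:ℕ)) := by
          rw [div_pow, one_div_pow, ← Real.rpow_natCast (k ^ ε1) 6, ← Real.rpow_mul hkpos.le]
          ring
      _ ≤ _ := by
          refine mul_le_mul_of_nonneg_left (Real.rpow_le_rpow_of_exponent_le hk1 ?_) (by positivity)
          push_cast
          linarith
  calc (⌈Real.exp L * M0 * lk ^ 4⌉₊ : ℝ) ≤ 2 * (Real.exp L * M0 * lk ^ 4) := by linarith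
    _ ≤ 2 * (2 * (k * lk ^ 2) * (2 * k ^ θ) ^ 4 * M0 * lk ^ 4) := by
        rw [hD]; gcongr
    _ = 2 * 2 * (2:ℝ) ^ 4 * M0 * (k * (k ^ θ) ^ 4) * lk ^ 6 := by ring
    _ ≤ 2 * 2 * (2:ℝ) ^ 4 * M0 * (k * (k ^ θ) ^ 4) * ((1 / ε1) ^ 6 * k ^ (ε / 2)) := by gcongr
    _ = 2 * 2 * (2:ℝ) ^ 4 * M0 * (1 / ε1) ^ 6 * k ^ (1 + θ * (4:ℕ) + ε / 2) := by
        rw [← Real.rpow_natCast (k ^ θ) 4, ← Real.rpow_mul hkpos.le, Real.rpow_add hkpos,
          Real.rpow_add hkpos, Real.rpow_one]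
        ring
    _ ≤ _ := by
        refine mul_le_mul ?_ (Real.rpow_le_rpow_of_exponent_le hk1 (by push_cast; linarith))
          (by positivity) (by positivity)
        gcongr
        norm_num

theorem sparse_mid {c : Cst} (hc : c.Good) {n : ℕ} {k θ ρ κ lk lw : ℝ} {w Z : ℕ}
    (hk : k = (n.primeFactors.card : ℝ)) (hκ : κ = θ * ρ / 2) (hρ0 : 0 < ρ)
    (hlk : lk = Real.log k) (hlw : lw = Real.log w) (hkpos : 0 < k) (hk1 : 1 ≤ k) (hlk100 : 100 ≤ lk)
    (hwz0 : c.z0 < w) (hwpos : (0:ℝ) < w) (hlw1 : θ * lk ≤ lw)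
    (hZlo : k * lk ^ 2 ≤ (Z:ℝ)) (hZhi : (Z:ℝ) ≤ 2 * (k * lk ^ 2)) (hZpos : (0:ℝ) < Z)
    (hlog2 : Real.log 2 ≤ 1) (hKlk : 4 * (c.K + 4) ≤ ρ * lk) (hρlk : 1024 ≤ ρ ^ 2 * lk)
    (hsparse : ∑ p ∈ (range (n.primeFactors.card + 1)).filter (fun p => p.Prime ∧ p ∣ n),
      Real.log p / p ≤ κ * lk) :
    ∑ p ∈ n.primeFactors.filter (fun p => w ≤ p ∧ p < Z), 1/(p:ℝ) ≤ ρ := by
  have hP : ∀ p ∈ n.primeFactors, p.Prime := fun p hp => Nat.prime_of_mem_primeFactors hp
  have hK := hc.K_one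
  set P := n.primeFactors with hPdef
  have hw2 : 2 ≤ w := le_trans hc.z0_two hwz0.le
  have hlw0 : 0 < lw := hlw ▸ Real.log_pos (by exact_mod_cast hw2)
  set q := P.card + 1 with hq
  have hqR : (q:ℝ) = k + 1 := by rw [hq, hk]; push_cast; ring
  have hqZ : q ≤ Z := by
    have : (q:ℝ) ≤ Z := by
      have h : 2 * k ≤ k * lk ^ 2 := by
        have h2 : (2:ℝ) ≤ lk ^ 2 := by nlinarith
        linarith [mul_le_mul_of_nonneg_left h2 hkpos.le]
      linarith
    exact_mod_cast this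
  have hq2 : 2 ≤ q := by
    have : (2:ℝ) ≤ q := by linarith
    exact_mod_cast this
  have hlo : ∑ p ∈ P.filter (fun p => w ≤ p ∧ p < q), 1/(p:ℝ) ≤ ρ / 2 := by
    have h1 : ∑ p ∈ P.filter (fun p => w ≤ p ∧ p < q), 1/(p:ℝ)
        ≤ (∑ p ∈ P.filter (fun p => w ≤ p ∧ p < q), Real.log p / p) / lw := by
      rw [Finset.sum_div]
      refine Finset.sum_le_sum (fun p hp => ?_)
      obtain ⟨hpP, hwp, -⟩ := mem_filter.1 hp
      rw [le_div_iff₀ hlw0, div_mul_eq_mul_div, one_mul]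
      refine div_le_div_of_nonneg_right ?_ (by positivity)
      rw [hlw]
      exact Real.log_le_log hwpos (by exact_mod_cast hwp)
    have h2 : ∑ p ∈ P.filter (fun p => w ≤ p ∧ p < q), Real.log p / p ≤ κ * lk := by
      refine le_trans (Finset.sum_le_sum_of_subset_of_nonneg (fun p hp => ?_)
        (fun p _ _ => div_nonneg (Real.log_natCast_nonneg p) (by positivity))) hsparse
      obtain ⟨hpP, -, hpq⟩ := mem_filter.1 hp
      exact mem_filter.2 ⟨mem_range.2 hpq, hP p hpP, Nat.dvd_of_mem_primeFactors hpP⟩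
    refine h1.trans ((div_le_div_of_nonneg_right h2 hlw0.le).trans ?_)
    rw [div_le_iff₀ hlw0, hκ]
    have := mul_le_mul_of_nonneg_left hlw1 (show 0 ≤ ρ / 2 by positivity)
    linarith
  have hhi : ∑ p ∈ primesIco q Z, 1/(p:ℝ) ≤ ρ / 2 := by
    have hm := (hc.mertens q Z hq2 hqZ).2
    set lq := Real.log q
    have hlq1 : lk ≤ lq := hlk ▸ Real.log_le_log hkpos (by linarith)
    have h1 : ∑ p ∈ primesIco q Z, 1/(p:ℝ)
        ≤ (∑ p ∈ primesIco q Z, Real.log p / p) / lq := by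
      rw [Finset.sum_div]
      refine Finset.sum_le_sum (fun p hp => ?_)
      obtain ⟨⟨hqp, -⟩, -⟩ := mem_primesIco.1 hp
      rw [le_div_iff₀ (by linarith), div_mul_eq_mul_div, one_mul]
      refine div_le_div_of_nonneg_right ?_ (by positivity)
      exact Real.log_le_log (by linarith) (by exact_mod_cast hqp)
    refine h1.trans ((div_le_div_of_nonneg_right hm (by linarith)).trans ?_)
    rw [div_le_iff₀ (by linarith)]
    have hZl : Real.log Z ≤ 1 + lk + 2 * Real.log lk := by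
      have := Real.log_le_log hZpos hZhi
      rw [Real.log_mul (by norm_num) (by positivity), Real.log_mul hkpos.ne' (by positivity),
        Real.log_pow, ← hlk] at this
      push_cast at this
      linarith
    have hll : Real.log lk ≤ 2 * Real.sqrt lk := by
      have h := Real.log_le_sub_one_of_pos (Real.sqrt_pos.2 (show 0 < lk by linarith))
      rw [Real.log_sqrt (by linarith)] at h
      linarith
    have hs1 := Real.mul_self_sqrt (show 0 ≤ lk by linarith)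
    have hs2 : 32 ≤ ρ * Real.sqrt lk := by
      by_contra hcon
      push Not at hcon
      have h2 : (ρ * Real.sqrt lk) ^ 2 < 32 ^ 2 :=
        pow_lt_pow_left₀ hcon (by positivity) (by norm_num)
      rw [mul_pow, Real.sq_sqrt (by linarith)] at h2
      linarith
    have hs3 : 16 * Real.sqrt lk ≤ ρ / 2 * lk := by
      nlinarith [mul_le_mul_of_nonneg_right hs2 (Real.sqrt_nonneg lk)]
    have := mul_le_mul_of_nonneg_left hlq1 (show 0 ≤ ρ / 2 by positivity)
    linarith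
  calc ∑ p ∈ P.filter (fun p => w ≤ p ∧ p < Z), 1/(p:ℝ)
      ≤ ∑ p ∈ P.filter (fun p => w ≤ p ∧ p < q) ∪ primesIco q Z, 1/(p:ℝ) := by
        refine Finset.sum_le_sum_of_subset_of_nonneg (fun p hp => ?_) (fun p _ _ => by positivity)
        obtain ⟨hpP, hwp, hpZ⟩ := mem_filter.1 hp
        rcases lt_or_ge p q with h | h
        · exact Finset.mem_union_left _ (mem_filter.2 ⟨hpP, hwp, h⟩)
        · exact Finset.mem_union_right _ (mem_primesIco.2 ⟨⟨h, hpZ⟩, hP p hpP⟩)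
    _ ≤ (∑ p ∈ P.filter (fun p => w ≤ p ∧ p < q), 1/(p:ℝ)) + ∑ p ∈ primesIco q Z, 1/(p:ℝ) := by
        rw [← Finset.sum_union_inter]
        have : 0 ≤ ∑ p ∈ P.filter (fun p => w ≤ p ∧ p < q) ∩ primesIco q Z, 1/(p:ℝ) :=
          Finset.sum_nonneg (fun p _ => by positivity)
        linarith
    _ ≤ ρ := by linarith

theorem prod_le_primorial (c : Cst) {P : Finset ℕ} (hP : ∀ p ∈ P, p.Prime) :
    ∀ z' : ℕ, (z' ≤ c.z0 ∨ Real.log z' ≤ 2 * c.L1) →
      ((∏ p ∈ P.filter (· < z'), p : ℕ) : ℝ)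
        ≤ (primorial (max c.z0 ⌈Real.exp (2 * c.L1)⌉₊) : ℝ) := by
  intro z' h'
  set Z1 := max c.z0 ⌈Real.exp (2 * c.L1)⌉₊
  have hz' : z' ≤ Z1 := by
    rcases h' with h' | h'
    · exact h'.trans (le_max_left _ _)
    · rcases Nat.eq_zero_or_pos z' with rfl | hpos
      · exact Nat.zero_le _
      · have : (z':ℝ) ≤ ⌈Real.exp (2 * c.L1)⌉₊ := by
          rw [← Real.exp_log (show (0:ℝ) < z' by exact_mod_cast hpos)]
          exact (Real.exp_le_exp.2 h').trans (Nat.le_ceil _)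
        exact le_max_of_le_right (by exact_mod_cast this)
  refine Nat.cast_le.2 ?_
  unfold primorial
  refine Finset.prod_le_prod_of_subset_of_one_le' (fun p hp => ?_)
    (fun p hp _ => (mem_filter.1 hp).2.one_le)
  obtain ⟨hp1, hp2⟩ := mem_filter.1 hp
  exact mem_filter.2 ⟨mem_range.2 (by omega), hP p hp1⟩

theorem sparse_large {c : Cst} (hc : c.Good) {ε θ ρ κ cV G ε1 l0 k0 Cbig M0 E : ℝ}
    (hε : 0 < ε) (hθ0 : 0 < θ) (hθ8 : θ ≤ 1/8) (hθε : 4 * θ ≤ ε / 2)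
    (hρ : ρ = c.f 3 / (4 * (c.F 3 + 1))) (hκ : κ = θ * ρ / 2)
    (hM0 : M0 = (primorial (max c.z0 ⌈Real.exp (2 * c.L1)⌉₊) : ℝ))
    (hcV : cV = Real.log 2 / (1 + c.K / Real.log 2))
    (hG : G = (c.z0:ℝ) + |c.L1| + 2 * c.C / c.f 3 + c.C + 24 / (cV * c.f 3) + 1)
    (hε1 : ε1 = min (ε / 12) 1)
    (hl0 : l0 = max (max (G / θ) (4 * (c.K + 4) / ρ)) (max (1024 / ρ ^ 2) 100))
    (hk0 : k0 = Real.exp l0)
    (hCbig : Cbig = 2 * 32 * (2:ℝ) ^ 4 * M0 * (1 / ε1) ^ 6) (hE : 0 ≤ E)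
    {n : ℕ} (hn : 1 < n) (hsmall : k0 ≤ (n.primeFactors.card : ℝ))
    (hsparse : ∑ p ∈ (range (n.primeFactors.card + 1)).filter (fun p => p.Prime ∧ p ∣ n),
      Real.log p / p ≤ κ * Real.log (n.primeFactors.card : ℝ)) :
    ∃ m : ℕ, (m:ℝ) ≤ (Cbig + E) * (n.primeFactors.card : ℝ) ^ (1 + ε) ∧
      ∀ a : ℤ, ∃ i ∈ Set.Ico a (a + (m:ℤ)), IsCoprime i (n:ℤ) := by
  have hC := hc.C_pos
  have hK := hc.K_one
  have hf3 : 0 < c.f 3 := by
    have h := (hc.f_near 1 zero_le_one le_rfl).1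
    rw [show (2:ℝ) + 1 = 3 by norm_num] at h
    linarith [hc.A_pos]
  have hF3 : 0 < c.F 3 + 1 := by linarith [hc.F_gt 3]
  have hρ0 : 0 < ρ := by rw [hρ]; positivity
  have hM1 : 1 ≤ M0 := by rw [hM0]; exact Nat.one_le_cast.2 (primorial_pos _)
  have hl2 : 0 < Real.log 2 := Real.log_pos (by norm_num)
  have hcV0 : 0 < cV := by rw [hcV]; positivity
  have hε10 : 0 < ε1 := by rw [hε1]; exact lt_min (by positivity) one_pos
  have hε1' : ε1 ≤ ε / 12 := by rw [hε1]; exact min_le_left _ _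
  have hCbig0 : 0 ≤ Cbig := by rw [hCbig]; positivity
  rw [hl0] at hk0
  set P := n.primeFactors with hPdef
  have hP : ∀ p ∈ P, p.Prime := fun p hp => Nat.prime_of_mem_primeFactors hp
  set k : ℝ := (P.card : ℝ) with hk
  have hk1 : 1 ≤ k := by
    have := Finset.card_pos.2 (Nat.nonempty_primeFactors.2 hn)
    exact Nat.one_le_cast.2 this
  have hkpos : 0 < k := by linarith
  set lk := Real.log k with hlk
  have hlkl0 : l0 ≤ lk := by
    calc l0 = Real.log k0 := by rw [hk0, Real.log_exp, hl0]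
      _ ≤ lk := Real.log_le_log (hk0 ▸ Real.exp_pos _) hsmall
  have hlk100 : 100 ≤ lk := le_trans ((le_max_right _ _).trans (le_max_right _ _)) (hl0 ▸ hlkl0)
  have hGlk : G ≤ θ * lk := by
    have := le_trans ((le_max_left _ _).trans (le_max_left _ _)) (hl0 ▸ hlkl0)
    rw [div_le_iff₀ hθ0] at this; linarith
  have hKlk : 4 * (c.K + 4) ≤ ρ * lk := by
    have := le_trans ((le_max_right _ _).trans (le_max_left _ _)) (hl0 ▸ hlkl0)
    rw [div_le_iff₀ hρ0] at this; linarith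
  have hρlk : 1024 ≤ ρ ^ 2 * lk := by
    have := le_trans ((le_max_left _ _).trans (le_max_right _ _)) (hl0 ▸ hlkl0)
    rw [div_le_iff₀ (by positivity)] at this; linarith
  set w := ⌈k ^ θ⌉₊ with hw
  set Z := ⌈k * lk ^ 2⌉₊ with hZ
  have hwlo : k ^ θ ≤ (w:ℝ) := Nat.le_ceil _
  have hwhi : (w:ℝ) ≤ 2 * k ^ θ := by
    have := Nat.ceil_lt_add_one (show 0 ≤ k ^ θ by positivity)
    have := Real.one_le_rpow hk1 hθ0.le
    linarith
  have hlk2 : 1 ≤ lk ^ 2 := one_le_pow₀ (by linarith)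
  have hkl : k ≤ k * lk ^ 2 := le_mul_of_one_le_right hkpos.le hlk2
  have hZlo : k * lk ^ 2 ≤ (Z:ℝ) := Nat.le_ceil _
  have hZhi : (Z:ℝ) ≤ 2 * (k * lk ^ 2) := by
    have := Nat.ceil_lt_add_one (show 0 ≤ k * lk ^ 2 by positivity)
    linarith
  have hwpos : (0:ℝ) < w := lt_of_lt_of_le (by positivity) hwlo
  have hZpos : (0:ℝ) < Z := by linarith
  set lw := Real.log w with hlw
  have hlw1 : θ * lk ≤ lw := by
    rw [← Real.log_rpow hkpos]; exact Real.log_le_log (by positivity) hwlo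
  have hlog2 : Real.log 2 ≤ 1 := by linarith [Real.log_le_sub_one_of_pos (show (0:ℝ) < 2 by norm_num)]
  have hlw2 : lw ≤ θ * lk + 1 := by
    have := Real.log_le_log hwpos hwhi
    rw [Real.log_mul (by norm_num) (by positivity), Real.log_rpow hkpos] at this
    linarith
  have hlwlk : lw ≤ lk := by
    have := mul_le_mul_of_nonneg_right hθ8 (show 0 ≤ lk by linarith)
    linarith
  have hGparts : (c.z0:ℝ) < G ∧ c.L1 < G ∧ 2 * c.C / c.f 3 ≤ G ∧ c.C ≤ G ∧ 24 / (cV * c.f 3) ≤ G := by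
    have : 0 ≤ (c.z0:ℝ) := Nat.cast_nonneg _
    have := le_abs_self c.L1
    have : 0 ≤ |c.L1| := abs_nonneg _
    have : 0 ≤ 2 * c.C / c.f 3 := by positivity
    have : 0 ≤ 24 / (cV * c.f 3) := by positivity
    refine ⟨?_, ?_, ?_, ?_, ?_⟩ <;> linarith
  obtain ⟨g1, g2, g3, g4, g5⟩ := hGparts
  have hwz0 : c.z0 < w := by
    have := Real.log_le_sub_one_of_pos hwpos
    exact_mod_cast (show (c.z0:ℝ) < w by linarith)
  have hwZ : w ≤ Z := by
    refine Nat.ceil_mono ?_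
    refine le_trans ?_ hkl
    calc k ^ θ ≤ k ^ (1:ℝ) := Real.rpow_le_rpow_of_exponent_le hk1 (by linarith)
      _ = k := Real.rpow_one k
  set L := Real.log Z + 4 * lw with hL
  refine ⟨⌈Real.exp L * M0 * lk ^ 4⌉₊, ?_, fun a => ?_⟩
  · have hL0 : 0 ≤ L := by
      have := Real.log_nonneg (show (1:ℝ) ≤ Z by linarith)
      linarith [mul_nonneg hθ0.le (show 0 ≤ lk by linarith)]
    refine (sparse_size hk1 hkpos hε10 hε1' hθε hlk (by linarith) hM1 hZpos hwpos
      hZhi hwhi hlw hL hL0).trans ?_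
    refine mul_le_mul_of_nonneg_right ?_ (by positivity)
    linarith
  · have hM := hM0 ▸ prod_le_primorial c hP
    have hCL : 2 * c.C ≤ c.f 3 * lw := by
      have : 2 * c.C / c.f 3 ≤ lw := by linarith
      rw [div_le_iff₀ hf3] at this; linarith
    have hlkbig : 24 ≤ cV * c.f 3 * lk := by
      have h' : 24 / (cV * c.f 3) ≤ lk := by linarith
      rw [div_le_iff₀ (by positivity)] at h'; linarith
    refine sparse_count hc hn hM1 hM hwz0 hwZ (L := L) hcV le_rfl (by linarith) hCL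
      (by linarith) ?_ ?_ hlwlk (by linarith) hlkbig hZlo ?_ a (ρ := ρ)
    · exact sparse_mid hc hk hκ hρ0 hlk hlw hkpos hk1 hlk100 hwz0 hwpos hlw1 hZlo hZhi hZpos
        hlog2 hKlk hρlk hsparse
    · rw [hρ, div_mul_eq_mul_div, div_le_div_iff₀ (by positivity) (by norm_num)]
      linarith
    · calc k = Real.exp lk := (Real.exp_log hkpos).symm
        _ ≤ _ := Real.exp_le_exp.2 (by
            have := Real.log_le_log hkpos (show k ≤ (Z:ℝ) by linarith)
            linarith [mul_nonneg hθ0.le (show 0 ≤ lk by linarith)])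

/-- Vaughan's suggested bound for sparse prime sets. -/
theorem jacobsthal_sparse_bound (ε : ℝ) (hε : 0 < ε) :
    ∃ κ : ℝ, 0 < κ ∧ ∃ C : ℝ, ∀ n : ℕ, 1 < n →
      ∑ p ∈ (range (n.primeFactors.card + 1)).filter (fun p => p.Prime ∧ p ∣ n), Real.log p / p
          ≤ κ * Real.log (n.primeFactors.card : ℝ) →
      ∃ m : ℕ, (m:ℝ) ≤ C * (n.primeFactors.card : ℝ) ^ (1 + ε) ∧
        ∀ a : ℤ, ∃ i ∈ Set.Ico a (a + (m:ℤ)), IsCoprime i (n:ℤ) := by
  obtain ⟨c, hc⟩ := exists_good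
  have hC := hc.C_pos
  have hK := hc.K_one
  have hf3 : 0 < c.f 3 := by
    have h := (hc.f_near 1 zero_le_one le_rfl).1
    rw [show (2:ℝ) + 1 = 3 by norm_num] at h
    linarith [hc.A_pos]
  have hF3 : 0 < c.F 3 + 1 := by linarith [hc.F_gt 3]
  set θ := min (1/8) (ε / 10) with hθ
  have hθ0 : 0 < θ := lt_min (by norm_num) (by positivity)
  have hθ8 : θ ≤ 1/8 := min_le_left _ _
  have hθε : 4 * θ ≤ ε / 2 := by linarith [min_le_right (1/8) (ε / 10)]
  set ρ := c.f 3 / (4 * (c.F 3 + 1)) with hρ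
  have hρ0 : 0 < ρ := by positivity
  set κ := θ * ρ / 2 with hκ
  obtain ⟨cg, hcg, Cg, hCg, N, hgen⟩ := jacobsthal_deficit_bound
  set Z1 := max c.z0 ⌈Real.exp (2 * c.L1)⌉₊
  set M0 : ℝ := (primorial Z1 : ℝ) with hM0
  have hM1 : 1 ≤ M0 := Nat.one_le_cast.2 (primorial_pos Z1)
  have hl2 : 0 < Real.log 2 := Real.log_pos (by norm_num)
  set cV := Real.log 2 / (1 + c.K / Real.log 2) with hcV
  have hcV0 : 0 < cV := by positivity
  set G := (c.z0:ℝ) + |c.L1| + 2 * c.C / c.f 3 + c.C + 24 / (cV * c.f 3) + 1 with hG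
  set ε1 := min (ε / 12) 1 with hε1
  set l0 : ℝ := max (max (G / θ) (4 * (c.K + 4) / ρ)) (max (1024 / ρ ^ 2) 100) with hl0
  set k0 := Real.exp l0 with hk0
  set Cbig := 2 * 32 * (2:ℝ) ^ 4 * M0 * (1 / ε1) ^ 6 with hCbig
  refine ⟨κ, by positivity,
    Cbig + Cg * k0 ^ 2 * Real.log (3 * k0) ^ N, fun n hn hsparse => ?_⟩
  set P := n.primeFactors with hPdef
  have hP : ∀ p ∈ P, p.Prime := fun p hp => Nat.prime_of_mem_primeFactors hp
  set k : ℝ := (P.card : ℝ) with hk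
  have hk1 : 1 ≤ k := by
    have := Finset.card_pos.2 (Nat.nonempty_primeFactors.2 hn)
    exact Nat.one_le_cast.2 this
  have hkpos : 0 < k := by linarith
  have hkε : 1 ≤ k ^ (1 + ε) := Real.one_le_rpow hk1 (by linarith)
  have hε10 : 0 < ε1 := lt_min (by positivity) one_pos
  have hCbig0 : 0 ≤ Cbig := by positivity
  have hk01 : 1 ≤ k0 := Real.one_le_exp (le_trans (by norm_num)
    ((le_max_right _ (100:ℝ)).trans (le_max_right _ _)))
  have hl3 : 0 ≤ Real.log (3 * k0) := Real.log_nonneg (by linarith)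
  by_cases hsmall : k < k0
  · -- bounded `k`
    obtain ⟨m, hm, hi⟩ := hgen n hn
    refine ⟨m, hm.trans ?_, hi⟩
    rw [← hk]
    have h1 : Real.exp (-cg * ∑ p ∈ (range (P.card + 1)).filter
        (fun p => p.Prime ∧ ¬ p ∣ n), Real.log p / p) ≤ 1 := by
      refine Real.exp_le_one_iff.2 ?_
      have : 0 ≤ ∑ p ∈ (range (P.card + 1)).filter (fun p => p.Prime ∧ ¬ p ∣ n), Real.log p / p :=
        Finset.sum_nonneg (fun p _ => div_nonneg (Real.log_natCast_nonneg p) (by positivity))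
      nlinarith
    have hlk0' : 0 ≤ Real.log (3 * k) := Real.log_nonneg (by linarith)
    refine le_trans (mul_le_of_le_one_right (by positivity) h1) ?_
    calc Cg * k ^ 2 * Real.log (3 * k) ^ N ≤ Cg * k0 ^ 2 * Real.log (3 * k0) ^ N * 1 := by
          rw [mul_one]
          have := hsmall.le
          gcongr
      _ ≤ (Cbig + Cg * k0 ^ 2 * Real.log (3 * k0) ^ N) * k ^ (1 + ε) := by
          refine mul_le_mul ?_ hkε zero_le_one (by positivity)
          linarith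
  push Not at hsmall
  exact sparse_large hc hε hθ0 hθ8 hθε hρ hκ hM0 hcV hG hε1 hl0 hk0 hCbig (by positivity) hn hsmall hsparse

end Vale.Agent.P013
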