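import Vale.Agent.P013.DDE
import Vale.Agent.P013.Abel
import Vale.Agent.P013.Comb

/-! The analytic step of the linear sieve with a gain from missing primes (P013). -/

open Finset Real

namespace Vale.Agent.P013

/-- All constants of the argument. -/
structure Cst where
  /-- upper sieve function -/
  F : ℝ → ℝ
  /-- lower sieve function -/
  f : ℝ → ℝ
  /-- normalising constant of the sieve functions -/
  A : ℝ
  /-- decay constant -/
  C5 : ℝ
  /-- Mertens constant -/
  K : ℝ
  /-- size of the gain -/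
  γ : ℝ
  /-- size of the loss -/
  B : ℝ
  /-- secondary error constant -/
  C : ℝ
  /-- positive lower bound for the sieve functions -/
  phi : ℝ
  /-- threshold for the logarithm of the level -/
  L1 : ℝ
  /-- threshold for the sifting limit -/
  z0 : ℕ

/-- The conditions on the constants. -/
structure Cst.Good (c : Cst) : Prop where
  A_pos : 0 < c.A
  F_anti : Antitone c.F
  f_mono : Monotone c.f
  F_gt : ∀ s, 1 < c.F s
  f_lt : ∀ s, c.f s < 1
  f_nonneg : ∀ s, 0 ≤ c.f s
  f_zero : ∀ s ≤ (2:ℝ), c.f s = 0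
  F_int : ∀ s T, 2 ≤ s → s ≤ T →
    ∫ x in s..T, (c.F (x - 1) - 1) = s * (1 - c.f s) - T * (1 - c.f T)
  f_int : ∀ s T, 1/10 < s → s ≤ T →
    ∫ x in s..T, (1 - c.f (x - 1)) = s * (c.F s - 1) - T * (c.F T - 1)
  f_near : ∀ ε, 0 ≤ ε → ε ≤ 1 → ε * c.A / 6 ≤ c.f (2 + ε) ∧ c.f (2 + ε) ≤ c.A * ε
  F_decay : ∀ x, c.F (x - 1) - 1 ≤ c.C5 * Real.exp (-5 * x)
  f_decay : ∀ x, 1 - c.f (x - 1) ≤ c.C5 * Real.exp (-5 * x)
  C5_big : Real.exp 25 ≤ c.C5
  K_one : 1 ≤ c.K
  mertens : ∀ u z : ℕ, 2 ≤ u → u ≤ z →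
    (∏ p ∈ primesIco u z, (1 - 1/(p:ℝ))⁻¹
        ≤ Real.log z / Real.log u * (1 + c.K / Real.log u)) ∧
      ∑ p ∈ primesIco u z, Real.log p / p ≤ Real.log z - Real.log u + c.K
  γ_pos : 0 < c.γ
  γ_small : c.γ ≤ 1/1400
  γ_A : 900 * c.A * c.γ ≤ c.phi
  phi_pos : 0 < c.phi
  phi_f : c.phi ≤ 1 - c.f 22
  phi_F : c.phi ≤ c.F 22 - 1
  C_big : 12 * c.K * c.C5 ≤ c.C
  B_big : 672 * c.C ≤ c.B * c.phi
  z0_two : 2 ≤ c.z0
  z0_big : c.K / Real.log c.z0 ≤ 1/50
  L1_z0 : 4 * Real.log c.z0 ≤ c.L1
  large : ∀ L, c.L1 < L → c.B * Real.log L ≤ L/100 ∧ c.B ≤ L/100 ∧ c.K ≤ L/10 ∧ 2 ≤ Real.log L ∧ 8 ≤ L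

/-- The shifted level. -/
noncomputable def ell (c : Cst) (P : Finset ℕ) (D : ℝ) (z : ℕ) : ℝ :=
  Real.log D - c.B * Real.log (Real.log D) + c.γ * deficit P z
    + c.γ * deficit P z ^ 2 / Real.log D

/-- The error term. -/
noncomputable def errTerm (c : Cst) (D : ℝ) (z : ℕ) : ℝ :=
  c.C * Real.exp (-(Real.log D / Real.log z)) / Real.log D

/-- The Buchstab weight. -/
noncomputable def wt (P : Finset ℕ) (z p : ℕ) : ℝ := Vp P p / ((p:ℝ) * Vp P z)

/-- The comparison variable. -/
noncomputable def xval (c : Cst) (P : Finset ℕ) (D : ℝ) (z p : ℕ) : ℝ :=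
  ell c P D z / Real.log p * Real.exp (-(∑ g ∈ miss P p z, 1/(g:ℝ)) / 2)

/-- The uniform shift. -/
noncomputable def dlt (c : Cst) (P : Finset ℕ) (D : ℝ) (z : ℕ) : ℝ :=
  c.B / Real.log D + c.γ * deficit P z ^ 2 / (2 * Real.log D ^ 2)

/-- The shifted variable of a child. -/
noncomputable def tauVal (c : Cst) (P : Finset ℕ) (D : ℝ) (p : ℕ) : ℝ :=
  ell c P (D / p) p / Real.log p

variable {c : Cst} {P : Finset ℕ} {D : ℝ} {z : ℕ}

theorem Cst.Good.C_pos (hc : c.Good) : 0 < c.C := by
  have h1 := (Real.exp_pos 25).trans_le hc.C5_big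
  have h2 : 0 < 12 * c.K * c.C5 := by nlinarith [hc.K_one]
  linarith [hc.C_big]

theorem Cst.Good.B_pos (hc : c.Good) : 0 < c.B := by
  have h1 := hc.B_big
  have h2 := hc.C_pos
  by_contra h
  push Not at h
  nlinarith [hc.phi_pos]

/-- The basic numerical facts in the main regime. -/
theorem regime (hc : c.Good) (hz0 : c.z0 < z) (hL : c.L1 < Real.log D)
    (hlz : Real.log z ≤ 2 * Real.log D) :
    0 < Real.log z ∧ c.K ≤ Real.log z ∧ deficit P z ≤ 21/10 * Real.log D ∧
      |ell c P D z - Real.log D| ≤ Real.log D / 50 ∧ 0 ≤ dlt c P D z ∧ dlt c P D z ≤ 1 := by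
  obtain ⟨hB, hB', hK, hll, h8⟩ := hc.large _ hL
  have hz2 : 2 ≤ z := le_trans hc.z0_two hz0.le
  have hlz0 : 0 < Real.log c.z0 := Real.log_pos (by exact_mod_cast hc.z0_two)
  have hlz' : Real.log c.z0 ≤ Real.log z :=
    Real.log_le_log (by have := hc.z0_two; positivity) (by exact_mod_cast hz0.le)
  have hKz : c.K ≤ Real.log z := by
    have h := hc.z0_big
    rw [div_le_iff₀ hlz0] at h
    linarith
  have hdef : deficit P z ≤ 21/10 * Real.log D := by
    have h1 : deficit P z ≤ ∑ p ∈ primesIco 2 z, Real.log p / p := by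
      refine Finset.sum_le_sum_of_subset_of_nonneg (fun p hp => ?_)
        (fun p _ _ => div_nonneg (Real.log_natCast_nonneg p) (by positivity))
      have h := mem_primesIco.1 (mem_filter.1 hp).1
      exact mem_primesIco.2 ⟨⟨h.2.two_le, h.1.2⟩, h.2⟩
    have h2 := (hc.mertens 2 z le_rfl hz2).2
    rw [Nat.cast_ofNat] at h2
    have h3 : 0 ≤ Real.log (2:ℝ) := Real.log_nonneg (by norm_num)
    linarith
  have hd0 := deficit_nonneg (P := P) z
  set L := Real.log D with hLdef
  set d := deficit P z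
  have hL0 : 0 < L := by linarith
  have hsq : d ^ 2 / L ≤ 21/10 * d := by
    rw [div_le_iff₀ hL0]; nlinarith
  have hsq0 : 0 ≤ d ^ 2 / L := by positivity
  have hB0 := hc.B_pos
  have hg := hc.γ_small
  have hg0 := hc.γ_pos
  refine ⟨by linarith, hKz, hdef, ?_, by unfold dlt; positivity, ?_⟩
  · rw [abs_le, ell, mul_div_assoc]
    have h1 : c.γ * d + c.γ * (d ^ 2 / L) ≤ c.γ * (7 * L) := by nlinarith
    have h2 : c.γ * (7 * L) ≤ 1/1400 * (7 * L) := mul_le_mul_of_nonneg_right hg (by linarith)
    have h3 : 0 ≤ c.γ * d + c.γ * (d ^ 2 / L) := by positivity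
    have h4 : 0 ≤ c.B * Real.log L := mul_nonneg hB0.le (by linarith)
    constructor <;> linarith
  · have h1 : c.B / L ≤ 1/100 := by rw [div_le_iff₀ hL0]; linarith
    have h2 : c.γ * d ^ 2 / (2 * L ^ 2) ≤ 1/2 := by
      rw [div_le_iff₀ (by positivity)]
      have h' : d ^ 2 ≤ (21/10 * L) ^ 2 := pow_le_pow_left₀ hd0 hdef 2
      have h'' : c.γ * d ^ 2 ≤ 1/1400 * (21/10 * L) ^ 2 := mul_le_mul hg h' (sq_nonneg _) (by norm_num)
      nlinarith
    unfold dlt
    rw [← hLdef]
    linarith

theorem miss_sum_bounds (hc : c.Good) {p : ℕ} (hp : 2 ≤ p) (hpz : p ≤ z) :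
    0 ≤ ∑ g ∈ miss P p z, Real.log g / g ∧
    ∑ g ∈ miss P p z, Real.log g / g ≤ Real.log z * ∑ g ∈ miss P p z, 1/(g:ℝ) ∧
    ∑ g ∈ miss P p z, Real.log g / g ≤ Real.log z - Real.log p + c.K := by
  refine ⟨Finset.sum_nonneg (fun g _ => div_nonneg (Real.log_natCast_nonneg g) (by positivity)),
    ?_, ?_⟩
  · rw [Finset.mul_sum]
    refine Finset.sum_le_sum (fun g hg => ?_)
    have h := mem_primesIco.1 (mem_filter.1 hg).1
    rw [mul_one_div]
    refine div_le_div_of_nonneg_right ?_ (by positivity)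
    exact Real.log_le_log (by exact_mod_cast h.2.pos) (by exact_mod_cast h.1.2.le)
  · exact le_trans (Finset.sum_le_sum_of_subset_of_nonneg (Finset.filter_subset _ _)
      (fun g _ _ => div_nonneg (Real.log_natCast_nonneg g) (by positivity))) (hc.mertens p z hp hpz).2

/-- `X u` is smaller than `ℓ` by a multiple of the missing log-weight. -/
theorem xval_slack (hc : c.Good) (hz0 : c.z0 < z) (hL : c.L1 < Real.log D)
    (hlz : Real.log z ≤ 2 * Real.log D) {p : ℕ} (hp : c.z0 < p) (hpz : p < z) :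
    xval c P D z p * Real.log p
      ≤ ell c P D z - 8/100 * ∑ g ∈ miss P p z, Real.log g / g := by
  obtain ⟨hlzp, hKz, -, hell, -, -⟩ := regime (P := P) hc hz0 hL hlz
  have hp2 : 2 ≤ p := le_trans hc.z0_two hp.le
  obtain ⟨hm0, hm1, hm2⟩ := miss_sum_bounds (P := P) hc hp2 hpz.le
  have hlp : 0 < Real.log p := Real.log_pos (by exact_mod_cast hp2)
  set m := ∑ g ∈ miss P p z, Real.log g / g
  set μ := ∑ g ∈ miss P p z, 1/(g:ℝ) with hμ
  have hμ0 : 0 ≤ μ := Finset.sum_nonneg (fun g _ => by positivity)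
  set l := Real.log z
  set el := ell c P D z with hel
  have hx : xval c P D z p * Real.log p = el * Real.exp (-μ/2) := by
    rw [xval, ← hel, ← hμ]; field_simp
  rw [hx]
  have hexp : Real.exp (-μ/2) * (2 + μ) ≤ 2 := by
    have h := Real.add_one_le_exp (μ/2)
    have h' := mul_le_mul_of_nonneg_left h (Real.exp_pos (-μ/2)).le
    rw [← Real.exp_add, show -μ/2 + μ/2 = (0:ℝ) by ring, Real.exp_zero] at h'
    linarith
  have hel' : 49/100 * l ≤ el := by
    rw [abs_le] at hell
    linarith
  have hm3 : m ≤ 2 * l := by linarith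
  have h1 : m * (2 + μ) ≤ 4 * (l * μ) := by nlinarith [mul_le_mul_of_nonneg_right hm3 hμ0]
  have h2 : 8/100 * (m * (2 + μ)) ≤ el * μ := by nlinarith [mul_le_mul_of_nonneg_right hel' hμ0]
  have h3 : el * (Real.exp (-μ/2) * (2 + μ)) ≤ el * 2 :=
    mul_le_mul_of_nonneg_left hexp (by linarith)
  have h4 : (el * Real.exp (-μ/2)) * (2 + μ) ≤ (el - 8/100 * m) * (2 + μ) := by nlinarith
  exact le_of_mul_le_mul_right h4 (by linarith)

theorem log_child (hD : 0 < D) {p : ℕ} (hp : 0 < p) :
    Real.log (D / p) = Real.log D - Real.log p := by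
  rw [Real.log_div hD.ne' (by positivity)]

theorem shift_child (hc : c.Good) (hD : 0 < D) (hz0 : c.z0 < z) (hL : c.L1 < Real.log D)
    (hlz : Real.log z ≤ 2 * Real.log D) {p : ℕ} (hp : c.z0 < p) (hpz : p < z)
    (hchild : Real.log p < Real.log D) :
    xval c P D z p + dlt c P D z ≤ tauVal c P D p + 1 := by
  obtain ⟨hlzp, hKz, hdef, -, -, -⟩ := regime (P := P) hc hz0 hL hlz
  have hp2 : 2 ≤ p := le_trans hc.z0_two hp.le
  have hlp : 0 < Real.log p := Real.log_pos (by exact_mod_cast hp2)
  have hsl := xval_slack (P := P) hc hz0 hL hlz hp hpz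
  obtain ⟨hm0, -, -⟩ := miss_sum_bounds (P := P) hc hp2 hpz.le
  have hsplit := deficit_split (P := P) hpz.le
  have hd0 := deficit_nonneg (P := P) p
  have hL0 : 0 < Real.log D := by linarith
  rw [tauVal, ell, log_child hD (by omega), div_add_one hlp.ne', le_div_iff₀ hlp, add_mul]
  refine le_trans (add_le_add_left hsl _) ?_
  rw [dlt, ell, hsplit]
  rw [hsplit] at hdef
  set m := ∑ g ∈ miss P p z, Real.log g / g
  set dp := deficit P p
  set L := Real.log D
  set u := Real.log p
  have hu2 : u ≤ 2 * L := by linarith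
  have hLu : 0 < L - u := by linarith
  have hlog : u / L ≤ Real.log L - Real.log (L - u) := by
    have h := Real.one_sub_inv_le_log_of_pos (div_pos hL0 hLu)
    rw [inv_div, Real.log_div hL0.ne' hLu.ne'] at h
    have e : u / L = 1 - (L - u) / L := by field_simp; ring
    linarith
  have hB := mul_le_mul_of_nonneg_left hlog hc.B_pos.le
  have hrec : dp ^ 2 / L + dp ^ 2 * u / L ^ 2 ≤ dp ^ 2 / (L - u) := by
    rw [div_add_div _ _ hL0.ne' (by positivity), div_le_div_iff₀ (by positivity) hLu]
    nlinarith [mul_nonneg (mul_nonneg (sq_nonneg dp) (sq_nonneg u)) hL0.le]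
  have hg := hc.γ_small
  have hg0 := hc.γ_pos
  have hrec' := mul_le_mul_of_nonneg_left hrec hg0.le
  have h1 : ((dp + m) ^ 2 - dp ^ 2) / L ≤ 42/10 * m := by
    rw [div_le_iff₀ hL0]; nlinarith
  have h1' := mul_le_mul_of_nonneg_left h1 hg0.le
  have h2 : (dp + m) ^ 2 / (2 * L ^ 2) * u ≤ dp ^ 2 * u / L ^ 2 + 42/10 * m := by
    have ha : (dp + m) ^ 2 ≤ 2 * dp ^ 2 + 2 * (21/10 * L) * m := by nlinarith
    have hb : u * m ≤ 2 * L * m := mul_le_mul_of_nonneg_right hu2 hm0
    rw [div_mul_eq_mul_div, div_le_iff₀ (by positivity), add_mul, div_mul_eq_mul_div,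
      show dp ^ 2 * u * (2 * L ^ 2) / L ^ 2 = 2 * dp ^ 2 * u by field_simp]
    have hc' := mul_le_mul_of_nonneg_right ha hlp.le
    nlinarith [mul_le_mul_of_nonneg_left hb hL0.le]
  have h2' := mul_le_mul_of_nonneg_left h2 hg0.le
  have h3 : c.γ * m ≤ 1/1400 * m := mul_le_mul_of_nonneg_right hg hm0
  ring_nf at hrec' h1' h2' hB ⊢
  linarith

theorem shift_large_prime (hc : c.Good) (hz0 : c.z0 < z) (hL : c.L1 < Real.log D)
    (hlz : Real.log z ≤ 2 * Real.log D) {p : ℕ} (hp : c.z0 < p) (hpz : p < z)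
    (hbig : Real.log D ≤ 3 * Real.log p) :
    xval c P D z p + dlt c P D z ≤ 3 + 15 * c.γ * deficit P z / Real.log D := by
  obtain ⟨hlzp, hKz, hdef, -, -, -⟩ := regime (P := P) hc hz0 hL hlz
  obtain ⟨-, -, -, hll, h8⟩ := hc.large _ hL
  have hp2 : 2 ≤ p := le_trans hc.z0_two hp.le
  have hlp : 0 < Real.log p := Real.log_pos (by exact_mod_cast hp2)
  have hsl := xval_slack (P := P) hc hz0 hL hlz hp hpz
  obtain ⟨hm0, -, -⟩ := miss_sum_bounds (P := P) hc hp2 hpz.le
  have hd0 := deficit_nonneg (P := P) z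
  have hu2 : Real.log p ≤ Real.log z :=
    Real.log_le_log (by positivity) (by exact_mod_cast hpz.le)
  rw [ell] at hsl
  rw [dlt]
  set L := Real.log D with hLdef
  set d := deficit P z
  set u := Real.log p
  set X := xval c P D z p
  have hL0 : 0 < L := by linarith
  have hg0 := hc.γ_pos
  have hsq : d ^ 2 / L ≤ 21/10 * d := by rw [div_le_iff₀ hL0]; nlinarith
  have hsq' := mul_le_mul_of_nonneg_left hsq hg0.le
  rw [← mul_div_assoc] at hsq'
  have hBu : c.B / L * u ≤ c.B * Real.log L := by
    rw [div_mul_eq_mul_div, div_le_iff₀ hL0]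
    have : u ≤ Real.log L * L := by nlinarith
    nlinarith [mul_le_mul_of_nonneg_left this hc.B_pos.le]
  have h1 : (X + c.B / L) * u ≤ L + 31/10 * c.γ * d := by rw [add_mul]; nlinarith
  have h2 : X + c.B / L ≤ 3 + 93/10 * c.γ * d / L := by
    have e : (L + 31/10 * c.γ * d) ≤ (3 + 93/10 * c.γ * d / L) * u := by
      have : (3 + 93/10 * c.γ * d / L) * u = (3 * L + 93/10 * c.γ * d) * u / L := by field_simp
      rw [this, le_div_iff₀ hL0]
      nlinarith [mul_le_mul_of_nonneg_left hbig (show (0:ℝ) ≤ L + 31/10 * c.γ * d by positivity)]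
    exact le_of_mul_le_mul_right (h1.trans e) hlp
  have h3 : c.γ * d ^ 2 / (2 * L ^ 2) ≤ 2 * c.γ * d / L := by
    rw [div_le_div_iff₀ (by positivity) hL0]
    nlinarith [mul_le_mul_of_nonneg_left hdef (show (0:ℝ) ≤ c.γ * d * L by positivity),
      show (0:ℝ) ≤ c.γ * d * L * L by positivity]
  have h4 : 93/10 * c.γ * d / L + 2 * c.γ * d / L ≤ 15 * c.γ * d / L := by
    rw [← add_div]
    exact div_le_div_of_nonneg_right (by nlinarith) hL0.le
  linarith

theorem level_sum_le (hP : ∀ p ∈ P, p.Prime) {p : ℕ} (hpz : p ≤ z) :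
    ∑ q ∈ P.filter (fun q => p ≤ q ∧ q < z), wt P z q = Vp P p / Vp P z - 1 := by
  have hV := Vp_pos hP z
  have : ∑ q ∈ P.filter (fun q => p ≤ q ∧ q < z), wt P z q
      = (∑ q ∈ P.filter (fun q => p ≤ q ∧ q < z), Vp P q / q) / Vp P z := by
    rw [Finset.sum_div]
    exact Finset.sum_congr rfl (fun q _ => by rw [wt, div_div])
  rw [this, Vp_sum_identity hpz, sub_div, div_self hV.ne']

theorem wt_nonneg (hP : ∀ p ∈ P, p.Prime) (p : ℕ) : 0 ≤ wt P z p :=
  div_nonneg (Vp_pos hP p).le (mul_nonneg (by positivity) (Vp_pos hP z).le)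

theorem wt_pos (hP : ∀ p ∈ P, p.Prime) {p : ℕ} (hp : p ∈ P) : 0 < wt P z p :=
  div_pos (Vp_pos hP p) (mul_pos (by exact_mod_cast (hP p hp).pos) (Vp_pos hP z))

/-- The primes summed over in the main step. -/
def stepSet (c : Cst) (P : Finset ℕ) (z : ℕ) : Finset ℕ :=
  P.filter (fun p => c.z0 < p ∧ p < z)

theorem level_bound_stepSet (hP : ∀ p ∈ P, p.Prime) {Y : ℕ → ℝ} {M : ℝ → ℝ} {a : ℝ}
    (hM : MonotoneOn M (Set.Ici a)) (hY : ∀ p ∈ stepSet c P z, a ≤ Y p)
    (hb : ∀ p ∈ stepSet c P z, Vp P p / Vp P z - 1 ≤ M (Y p)) :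
    ∀ i ∈ stepSet c P z,
      ∑ j ∈ (stepSet c P z).filter (fun j => Y j ≤ Y i), wt P z j ≤ M (Y i) := by
  intro i hi
  set T := (stepSet c P z).filter (fun j => Y j ≤ Y i) with hT
  have hne : T.Nonempty := ⟨i, mem_filter.2 ⟨hi, le_rfl⟩⟩
  obtain ⟨q, hq, hmin⟩ := T.exists_min_image id hne
  obtain ⟨hqS, hqY⟩ := mem_filter.1 hq
  calc ∑ j ∈ T, wt P z j ≤ ∑ j ∈ P.filter (fun j => q ≤ j ∧ j < z), wt P z j := by
        refine Finset.sum_le_sum_of_subset_of_nonneg (fun j hj => ?_) (fun j _ _ => wt_nonneg hP j)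
        obtain ⟨h1, h2⟩ := mem_filter.1 (mem_filter.1 hj).1
        exact mem_filter.2 ⟨h1, hmin j hj, h2.2⟩
    _ = Vp P q / Vp P z - 1 := level_sum_le hP (mem_filter.1 hqS).2.2.le
    _ ≤ M (Y q) := hb q hqS
    _ ≤ M (Y i) := hM (hY q hqS) (hY i hi) hqY

/-- Weighted sum of an antitone function with exponential decay. -/
theorem sum_phi_le (hc : c.Good) (hP : ∀ p ∈ P, p.Prime) (hz0 : c.z0 < z)
    (hL : c.L1 < Real.log D) (hlz : Real.log z ≤ 2 * Real.log D)
    {Φ : ℝ → ℝ} (hΦ : Antitone Φ) (hΦ0 : ∀ x, 0 ≤ Φ x)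
    (hΦd : ∀ x, Φ x ≤ c.C5 * Real.exp (-5 * x)) :
    ∃ T, ell c P D z / Real.log z ≤ T ∧
      ∑ p ∈ stepSet c P z, wt P z p * Φ (xval c P D z p)
        ≤ (∫ x in (ell c P D z / Real.log z)..T, Φ x) / (ell c P D z / Real.log z)
          + 6 * c.K * c.C5 * Real.exp (-(Real.log D / Real.log z)) / Real.log D := by
  obtain ⟨hlzp, hKz, hdef, hell, hd0, hd1⟩ := regime (P := P) hc hz0 hL hlz
  obtain ⟨-, -, -, -, h8⟩ := hc.large _ hL
  rw [abs_le] at hell
  set el := ell c P D z with hel
  set L := Real.log D with hLdef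
  set s := el / Real.log z with hs
  have hel0 : 0 < el := by linarith
  have hs0 : 0 < s := div_pos hel0 hlzp
  have hK0 : 0 ≤ c.K := by linarith [hc.K_one]
  set k := c.K / (s * el) with hk
  have hk0 : 0 ≤ k := div_nonneg hK0 (mul_pos hs0 hel0).le
  have hratio : ∀ p ∈ stepSet c P z, Vp P p / Vp P z
      ≤ xval c P D z p / s * (1 + c.K * xval c P D z p / el) ∧
      1 < Vp P p / Vp P z ∧ xval c P D z p / s * (1 + c.K * xval c P D z p / el)
        ≤ xval c P D z p / s * (51/50) := by
    intro p hp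
    obtain ⟨hpP, hpz0, hpz⟩ := mem_filter.1 hp
    have hp2 : 2 ≤ p := le_trans hc.z0_two hpz0.le
    have hlp : 0 < Real.log p := Real.log_pos (by exact_mod_cast hp2)
    set μ := ∑ g ∈ miss P p z, 1/(g:ℝ) with hμ
    have hμ0 : 0 ≤ μ := Finset.sum_nonneg (fun g _ => by positivity)
    set e := Real.exp (-μ/2) with he
    have he0 : 0 < e := Real.exp_pos _
    have he1 : e ≤ 1 := Real.exp_le_one_iff.2 (by linarith)
    have hx : xval c P D z p = el / Real.log p * e := rfl
    have h := Vp_ratio_le hP (K := c.K) (fun u v hu hv => (hc.mertens u v hu hv).1) hp2 hpz.le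
    have hee : Real.exp (-μ) = e * e := by rw [he, ← Real.exp_add]; ring_nf
    rw [← hμ, hee] at h
    have hfac : Real.log z / Real.log p * e = xval c P D z p / s := by
      rw [hx, hs]; field_simp
    have hX0 : 0 ≤ xval c P D z p / s := by rw [← hfac]; positivity
    have hKX : c.K * xval c P D z p / el = c.K / Real.log p * e := by
      rw [hx]; field_simp
    have h50 : c.K / Real.log p ≤ 1/50 :=
      le_trans (div_le_div_of_nonneg_left hK0 (Real.log_pos (by exact_mod_cast hc.z0_two))
        (Real.log_le_log (by have := hc.z0_two; positivity) (by exact_mod_cast hpz0.le))) hc.z0_big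
    refine ⟨?_, ?_, ?_⟩
    · refine h.trans ?_
      rw [show Real.log z / Real.log p * (1 + c.K / Real.log p) * (e * e)
          = (Real.log z / Real.log p * e) * (e * (1 + c.K / Real.log p)) by ring, hfac, hKX]
      refine mul_le_mul_of_nonneg_left ?_ hX0
      linarith
    · have h1 := level_sum_le hP (p := p) (z := z) hpz.le
      have h2 : wt P z p ≤ ∑ q ∈ P.filter (fun q => p ≤ q ∧ q < z), wt P z q :=
        Finset.single_le_sum (fun q _ => wt_nonneg hP q) (mem_filter.2 ⟨hpP, le_rfl, hpz⟩)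
      have h3 := wt_pos (z := z) hP hpP
      linarith
    · refine mul_le_mul_of_nonneg_left ?_ hX0
      rw [hKX]
      have : c.K / Real.log p * e ≤ c.K / Real.log p := mul_le_of_le_one_right (by positivity) he1
      linarith
  set a := s / 2 with ha
  have haX : ∀ p ∈ stepSet c P z, a ≤ xval c P D z p := by
    intro p hp
    obtain ⟨h1, h2, h3⟩ := hratio p hp
    have h4 : 1 < xval c P D z p / s * (51/50) := by linarith
    rw [div_mul_eq_mul_div, one_lt_div hs0] at h4
    linarith
  set M : ℝ → ℝ := fun x => max (x - s) 0 / s + k * x ^ 2 with hM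
  have hMmono : MonotoneOn M (Set.Ici a) := by
    intro x hx y _ hxy
    have : 0 ≤ x := le_trans (by positivity) (Set.mem_Ici.1 hx)
    simp only [hM]
    gcongr
  have hW := level_bound_stepSet hP (M := M) hMmono haX (fun p hp => by
    obtain ⟨h1, -, -⟩ := hratio p hp
    have h2 : xval c P D z p / s - 1 ≤ max (xval c P D z p - s) 0 / s := by
      rw [div_sub_one hs0.ne']
      exact div_le_div_of_nonneg_right (le_max_left _ _) hs0.le
    have h3 : xval c P D z p / s * (c.K * xval c P D z p / el) = k * xval c P D z p ^ 2 := by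
      rw [hk]; field_simp
    have h4 : xval c P D z p / s * (1 + c.K * xval c P D z p / el)
        = xval c P D z p / s + k * xval c P D z p ^ 2 := by rw [mul_add, mul_one, h3]
    simp only [hM]
    linarith)
  set T := s + ∑ p ∈ stepSet c P z, |xval c P D z p| with hT
  have hsum0 : 0 ≤ ∑ p ∈ stepSet c P z, |xval c P D z p| := Finset.sum_nonneg (fun p _ => abs_nonneg _)
  have hsT : s ≤ T := by linarith
  have hXT : ∀ p ∈ stepSet c P z, xval c P D z p ≤ T := fun p hp => by
    have := Finset.single_le_sum (f := fun p => |xval c P D z p|) (fun q _ => abs_nonneg _) hp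
    linarith [le_abs_self (xval c P D z p)]
  have hint : ∀ x y : ℝ, IntervalIntegrable Φ MeasureTheory.volume x y :=
    fun x y => hΦ.intervalIntegrable
  have hint2 : ∀ x y : ℝ, IntervalIntegrable (fun t => 2 * t * Φ t) MeasureTheory.volume x y :=
    fun x y => (hint x y).continuousOn_mul ((continuous_const.mul continuous_id).continuousOn)
  set J : ℝ → ℝ := fun x => (∫ t in s..(max s x), Φ t) / s
    + k * (a ^ 2 * Φ a + ∫ t in a..x, 2 * t * Φ t) with hJ
  have hJinc : ∀ x y, a ≤ x → x ≤ y → (M y - M x) * Φ y ≤ J y - J x := by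
    intro x y hax hxy
    have hx0 : 0 ≤ x := le_trans (by positivity) hax
    have h1 : (max (y - s) 0 - max (x - s) 0) * Φ y
        ≤ (∫ t in s..(max s y), Φ t) - ∫ t in s..(max s x), Φ t := by
      rw [intervalIntegral.integral_interval_sub_left (hint _ _) (hint _ _)]
      have hxy' : max s x ≤ max s y := max_le_max le_rfl hxy
      rcases le_total y s with hys | hys
      · simp [max_eq_left hys, max_eq_left (hxy.trans hys),
          max_eq_right (sub_nonpos.2 hys), max_eq_right (sub_nonpos.2 (hxy.trans hys))]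
      · have e : max (y - s) 0 - max (x - s) 0 = max s y - max s x := by
          rw [max_eq_left (sub_nonneg.2 hys), max_eq_right hys]
          rcases le_total x s with h | h
          · rw [max_eq_right (sub_nonpos.2 h), max_eq_left h]; ring
          · rw [max_eq_left (sub_nonneg.2 h), max_eq_right h]; ring
        rw [e]
        have h := intervalIntegral.integral_mono_on hxy'
          ((continuous_const (y := Φ y)).intervalIntegrable (μ := MeasureTheory.volume) _ _)
          (hint _ _) (fun t ht => hΦ (ht.2.trans (le_of_eq (max_eq_right hys))))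
        simpa [intervalIntegral.integral_const, smul_eq_mul] using h
    have h2 : (y ^ 2 - x ^ 2) * Φ y
        ≤ (∫ t in a..y, 2 * t * Φ t) - ∫ t in a..x, 2 * t * Φ t := by
      rw [intervalIntegral.integral_interval_sub_left (hint2 _ _) (hint2 _ _)]
      have h := intervalIntegral.integral_mono_on hxy
        (f := fun t => 2 * Φ y * t)
        ((continuous_const.mul continuous_id).intervalIntegrable (μ := MeasureTheory.volume) _ _)
        (hint2 _ _) (fun t ht => by
          have h' := hΦ ht.2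
          nlinarith [ht.1])
      rw [intervalIntegral.integral_const_mul, integral_id] at h
      linarith
    have h1' := div_le_div_of_nonneg_right h1 hs0.le
    have h2' := mul_le_mul_of_nonneg_left h2 hk0
    simp only [hM, hJ]
    rw [sub_div] at h1'
    linear_combination h1' + h2'
  have hMa : 0 ≤ M a := by simp only [hM]; positivity
  have hJa : M a * Φ a ≤ J a := by
    simp only [hM, hJ]
    rw [max_eq_right (show a - s ≤ 0 by linarith), max_eq_left (show a ≤ s by linarith)]
    simp only [zero_div, zero_add, intervalIntegral.integral_same, add_zero]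
    rw [mul_assoc]
  have key := weighted_sum_le (fun p _ => wt_nonneg hP p) haX hXT (by linarith : a ≤ T)
    hW hΦ hΦ0 hMmono hMa hJa hJinc
  refine ⟨T, hsT, key.trans ?_⟩
  simp only [hJ, max_eq_right hsT]
  have hC5 : 0 < c.C5 := (Real.exp_pos 25).trans_le hc.C5_big
  have ha0 : 0 ≤ a := by positivity
  have hxe : ∀ x : ℝ, x ≤ Real.exp x := fun x => by linarith [Real.add_one_le_exp x]
  have hI : ∫ t in a..T, 2 * t * Φ t ≤ c.C5 / 2 * Real.exp (-3 * a) := by
    have hc4 : Continuous (fun t : ℝ => 2 * c.C5 * Real.exp (-4 * t)) := by fun_prop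
    have h := intervalIntegral.integral_mono_on (show a ≤ T by linarith) (hint2 a T)
      (hc4.intervalIntegrable (μ := MeasureTheory.volume) _ _)
      (g := fun t => 2 * c.C5 * Real.exp (-4 * t)) (fun t ht => by
        have ht0 : 0 ≤ t := ha0.trans ht.1
        calc 2 * t * Φ t ≤ 2 * Real.exp t * (c.C5 * Real.exp (-5 * t)) :=
              mul_le_mul (by linarith [hxe t]) (hΦd t) (hΦ0 t) (by positivity)
          _ = 2 * c.C5 * (Real.exp t * Real.exp (-5 * t)) := by ring
          _ = _ := by rw [← Real.exp_add]; ring_nf)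
    rw [intervalIntegral.integral_eq_sub_of_hasDerivAt
      (f := fun t => -(c.C5 / 2) * Real.exp (-4 * t)) (fun t _ => by
        have h' := ((hasDerivAt_id t).const_mul (-4:ℝ)).exp.const_mul (-(c.C5 / 2))
        refine h'.congr_deriv ?_
        simp only [id_eq]; ring)
      (hc4.intervalIntegrable _ _)] at h
    have h4 : Real.exp (-4 * a) ≤ Real.exp (-3 * a) := Real.exp_le_exp.2 (by linarith)
    have h5 := mul_le_mul_of_nonneg_left h4 (show (0:ℝ) ≤ c.C5 / 2 by positivity)
    have h6 : 0 ≤ c.C5 / 2 * Real.exp (-4 * T) := by positivity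
    linarith
  have hA : a ^ 2 * Φ a ≤ c.C5 * Real.exp (-3 * a) := by
    calc a ^ 2 * Φ a ≤ Real.exp a ^ 2 * (c.C5 * Real.exp (-5 * a)) :=
          mul_le_mul (pow_le_pow_left₀ ha0 (hxe a) 2) (hΦd a) (hΦ0 a) (by positivity)
      _ = c.C5 * (Real.exp a * Real.exp a * Real.exp (-5 * a)) := by ring
      _ = _ := by rw [← Real.exp_add, ← Real.exp_add]; ring_nf
  have hσ : Real.exp (-3 * a) ≤ Real.exp (-(L / Real.log z)) := by
    refine Real.exp_le_exp.2 ?_
    have h1 : 98/100 * L / Real.log z ≤ s := div_le_div_of_nonneg_right (by linarith) hlzp.le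
    have h2 : 98/100 * L / Real.log z = 98/100 * (L / Real.log z) := by ring
    have h3 : 0 ≤ L / Real.log z := div_nonneg (by linarith) hlzp.le
    linarith
  have hk3 : k ≤ 3 * c.K / L := by
    have h1 : L / 3 ≤ s * el := by
      have hs49 : 49/100 ≤ s := by rw [le_div_iff₀ hlzp]; linarith
      nlinarith
    calc k ≤ c.K / (L / 3) := div_le_div_of_nonneg_left hK0 (by linarith) h1
      _ = _ := by field_simp
  have hin : a ^ 2 * Φ a + ∫ t in a..T, 2 * t * Φ t ≤ 2 * c.C5 * Real.exp (-(L / Real.log z)) := by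
    have := mul_le_mul_of_nonneg_left hσ hC5.le
    linarith [mul_nonneg hC5.le (Real.exp_pos (-(L / Real.log z))).le]
  have hfin : k * (a ^ 2 * Φ a + ∫ t in a..T, 2 * t * Φ t)
      ≤ 3 * c.K / L * (2 * c.C5 * Real.exp (-(L / Real.log z))) :=
    (mul_le_mul_of_nonneg_left hin hk0).trans (mul_le_mul_of_nonneg_right hk3 (by positivity))
  have e : 3 * c.K / L * (2 * c.C5 * Real.exp (-(L / Real.log z)))
      = 6 * c.K * c.C5 * Real.exp (-(L / Real.log z)) / L := by ring
  linarith

theorem sum_exp_le (hc : c.Good) (hP : ∀ p ∈ P, p.Prime) (hz0 : c.z0 < z)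
    (hL : c.L1 < Real.log D) (hlz : Real.log z ≤ 2 * Real.log D) :
    ∑ p ∈ stepSet c P z, wt P z p * Real.exp (-(Real.log D / Real.log p))
      ≤ Real.exp (-(Real.log D / Real.log z)) * (1/50 + 51/50 / (Real.log D / Real.log z)) := by
  obtain ⟨hlzp, -, -, -, -, -⟩ := regime (P := P) hc hz0 hL hlz
  obtain ⟨-, -, -, -, h8⟩ := hc.large _ hL
  set L := Real.log D with hLdef
  set σ := L / Real.log z with hσ
  have hσ0 : 0 < σ := div_pos (by linarith) hlzp
  have hlp : ∀ p ∈ stepSet c P z, 0 < Real.log p ∧ Real.log p ≤ Real.log z ∧ 2 ≤ p ∧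
      c.K / Real.log p ≤ 1/50 := by
    intro p hp
    obtain ⟨-, hpz0, hpz⟩ := mem_filter.1 hp
    have hp2 : 2 ≤ p := le_trans hc.z0_two hpz0.le
    refine ⟨Real.log_pos (by exact_mod_cast hp2),
      Real.log_le_log (by positivity) (by exact_mod_cast hpz.le), hp2, ?_⟩
    exact le_trans (div_le_div_of_nonneg_left (by linarith [hc.K_one])
      (Real.log_pos (by exact_mod_cast hc.z0_two))
      (Real.log_le_log (by have := hc.z0_two; positivity) (by exact_mod_cast hpz0.le))) hc.z0_big
  set M : ℝ → ℝ := fun x => 51/50 * x / σ - 1 with hM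
  have hY : ∀ p ∈ stepSet c P z, σ ≤ L / Real.log p := fun p hp =>
    div_le_div_of_nonneg_left (by linarith) (hlp p hp).1 (hlp p hp).2.1
  have hMm : MonotoneOn M (Set.Ici σ) := fun x _ y _ hxy => by simp only [hM]; gcongr
  have hW := level_bound_stepSet hP (M := M) hMm hY (fun p hp => by
    obtain ⟨h1, -, h3, h4⟩ := hlp p hp
    have h := Vp_ratio_le hP (K := c.K) (fun u v hu hv => (hc.mertens u v hu hv).1) h3
      (mem_filter.1 hp).2.2.le
    have he : Real.exp (-(∑ g ∈ miss P p z, 1/(g:ℝ))) ≤ 1 :=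
      Real.exp_le_one_iff.2 (neg_nonpos.2 (Finset.sum_nonneg (fun g _ => by positivity)))
    have hpos : 0 ≤ Real.log z / Real.log p := by positivity
    have hK1 : 0 ≤ c.K / Real.log p := div_nonneg (by linarith [hc.K_one]) h1.le
    have h5 : Real.log z / Real.log p * (1 + c.K / Real.log p)
        * Real.exp (-(∑ g ∈ miss P p z, 1/(g:ℝ)))
        ≤ Real.log z / Real.log p * (51/50) * 1 :=
      mul_le_mul (mul_le_mul_of_nonneg_left (by linarith) hpos) he (Real.exp_pos _).le (by positivity)
    have e : Real.log z / Real.log p * (51/50) * 1 = 51/50 * (L / Real.log p) / σ := by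
      rw [hσ]; field_simp
    simp only [hM]
    linarith)
  set T := σ + ∑ p ∈ stepSet c P z, L / Real.log p with hT
  have hnn : ∀ p ∈ stepSet c P z, 0 ≤ L / Real.log p :=
    fun p hp => div_nonneg (by linarith) (hlp p hp).1.le
  set J : ℝ → ℝ := fun x => 1/50 * Real.exp (-σ) + 51/50 / σ * (Real.exp (-σ) - Real.exp (-x))
    with hJ
  have key := weighted_sum_le (fun p _ => wt_nonneg (z := z) hP p) hY
    (fun p hp => by have := Finset.single_le_sum hnn hp; linarith)
    (show σ ≤ T by linarith [Finset.sum_nonneg hnn]) hW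
    (Φ := fun x => Real.exp (-x)) (fun x y h => Real.exp_le_exp.2 (neg_le_neg h))
    (fun x => (Real.exp_pos _).le) hMm
    (by simp only [hM]; rw [mul_div_assoc, div_self hσ0.ne']; norm_num) (J := J)
    (by simp only [hM, hJ]; rw [mul_div_assoc, div_self hσ0.ne']; norm_num)
    (fun x y _ hxy => by
      have h := Real.add_one_le_exp (y - x)
      have h' := mul_le_mul_of_nonneg_right h (Real.exp_pos (-y)).le
      rw [← Real.exp_add, show y - x + -y = -x by ring] at h'
      have h'' : (y - x) * Real.exp (-y) ≤ Real.exp (-x) - Real.exp (-y) := by linarith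
      simp only [hM, hJ]
      have h3 := mul_le_mul_of_nonneg_left h'' (show (0:ℝ) ≤ 51/50 / σ by positivity)
      linear_combination h3)
  refine key.trans ?_
  simp only [hJ]
  have : 0 ≤ 51/50 / σ * Real.exp (-T) := by positivity
  linarith

theorem errTerm_child (hc : c.Good) (hD : 0 < D) {p : ℕ} (hp : 2 ≤ p)
    (hL : 0 < Real.log D) (h : 45/100 * Real.log D ≤ Real.log D - Real.log p) :
    errTerm c (D / p) p ≤ 7 * c.C / Real.log D * Real.exp (-(Real.log D / Real.log p)) := by
  have hlp : 0 < Real.log p := Real.log_pos (by exact_mod_cast hp)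
  rw [errTerm, log_child hD (by omega)]
  set L := Real.log D
  have e : Real.exp (-((L - Real.log p) / Real.log p))
      = Real.exp 1 * Real.exp (-(L / Real.log p)) := by
    rw [← Real.exp_add, sub_div, div_self hlp.ne']; ring_nf
  rw [e]
  have he := Real.exp_one_lt_d9
  have hC := hc.C_pos
  have hx := Real.exp_pos (-(L / Real.log p))
  calc c.C * (Real.exp 1 * Real.exp (-(L / Real.log p))) / (L - Real.log p)
      ≤ c.C * (Real.exp 1 * Real.exp (-(L / Real.log p))) / (45/100 * L) :=
        div_le_div_of_nonneg_left (by positivity) (by positivity) h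
    _ = (Real.exp 1 / (45/100)) * (c.C / L * Real.exp (-(L / Real.log p))) := by field_simp
    _ ≤ 7 * (c.C / L * Real.exp (-(L / Real.log p))) := by
        refine mul_le_mul_of_nonneg_right ?_ (by positivity)
        rw [div_le_iff₀ (by norm_num)]; linarith
    _ = _ := by ring

/-- Absorb the error terms into the margin. -/
theorem absorb (hc : c.Good) (hz0 : c.z0 < z) (hL : c.L1 < Real.log D)
    (hlz : Real.log z ≤ 2 * Real.log D) {φ : ℝ} (hφ0 : 0 ≤ φ)
    (hφ : ell c P D z / Real.log z ≤ 21 → c.phi ≤ φ) :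
    6 * c.K * c.C5 * Real.exp (-(Real.log D / Real.log z)) / Real.log D
      + 7 * c.C / Real.log D
        * (Real.exp (-(Real.log D / Real.log z)) * (1/50 + 51/50 / (Real.log D / Real.log z)))
      ≤ dlt c P D z * φ / (2 * (ell c P D z / Real.log z)) + errTerm c D z := by
  obtain ⟨hlzp, -, -, hell, hd0, -⟩ := regime (P := P) hc hz0 hL hlz
  obtain ⟨-, -, -, -, h8⟩ := hc.large _ hL
  rw [abs_le] at hell
  set L := Real.log D with hLdef
  set σ := L / Real.log z with hσ
  set s := ell c P D z / Real.log z with hs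
  have hs0 : 0 < s := div_pos (by linarith) hlzp
  have hσ2 : 1/2 ≤ σ := by rw [le_div_iff₀ hlzp]; linarith
  have hC := hc.C_pos
  have hC' := hc.C_big
  set e := Real.exp (-σ) with he
  have he0 : 0 < e := Real.exp_pos _
  have herr : errTerm c D z = c.C * e / L := rfl
  rw [herr]
  have hmarg : 0 ≤ dlt c P D z * φ / (2 * s) := by positivity
  rcases le_total 20 σ with hbig | hsmall
  · have h1 : 51/50 / σ ≤ 51/1000 := by rw [div_le_iff₀ (by linarith)]; linarith
    have h2 : e * (1/50 + 51/50 / σ) ≤ e * (71/1000) :=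
      mul_le_mul_of_nonneg_left (by linarith) he0.le
    have h3 : 6 * c.K * c.C5 * e / L ≤ c.C / 2 * e / L := by gcongr; linarith
    have h4 : 7 * c.C / L * (e * (1/50 + 51/50 / σ)) ≤ c.C / 2 * e / L := by
      calc 7 * c.C / L * (e * (1/50 + 51/50 / σ)) ≤ 7 * c.C / L * (e * (71/1000)) :=
            mul_le_mul_of_nonneg_left h2 (by positivity)
        _ = (497/1000) * (c.C * e / L) := by ring
        _ ≤ (1/2) * (c.C * e / L) := mul_le_mul_of_nonneg_right (by norm_num) (by positivity)
        _ = _ := by ring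
    have : c.C / 2 * e / L + c.C / 2 * e / L = c.C * e / L := by ring
    linarith
  · have he1 : e ≤ 1 := Real.exp_le_one_iff.2 (by linarith)
    have h1 : 51/50 / σ ≤ 51/25 := by rw [div_le_iff₀ (by linarith)]; linarith
    have h2 : e * (1/50 + 51/50 / σ) ≤ 1 * (103/50) :=
      mul_le_mul he1 (by linarith) (by positivity) zero_le_one
    have h3 : 6 * c.K * c.C5 * e / L ≤ c.C / 2 / L := by
      gcongr
      calc 6 * c.K * c.C5 * e ≤ (c.C / 2) * e := mul_le_mul_of_nonneg_right (by linarith) he0.le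
        _ ≤ _ := mul_le_of_le_one_right (by positivity) he1
    have h4 : 7 * c.C / L * (e * (1/50 + 51/50 / σ)) ≤ 15 * c.C / L := by
      calc 7 * c.C / L * (e * (1/50 + 51/50 / σ)) ≤ 7 * c.C / L * (1 * (103/50)) :=
            mul_le_mul_of_nonneg_left h2 (by positivity)
        _ = (721/50) * (c.C / L) := by ring
        _ ≤ 15 * (c.C / L) := mul_le_mul_of_nonneg_right (by norm_num) (by positivity)
        _ = _ := by ring
    have hs21 : s ≤ 21 := by
      rw [div_le_iff₀ hlzp]
      have : L ≤ 20 * Real.log z := by rwa [div_le_iff₀ hlzp] at hsmall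
      linarith
    have h5 : 16 * c.C / L ≤ dlt c P D z * φ / (2 * s) := by
      have hB : c.B / L ≤ dlt c P D z := by
        unfold dlt
        rw [← hLdef]
        have : 0 ≤ c.γ * deficit P z ^ 2 / (2 * L ^ 2) := by
          have := hc.γ_pos; positivity
        linarith
      calc 16 * c.C / L = (672 * c.C) / L / 42 := by ring
        _ ≤ (c.B * c.phi) / L / 42 :=
            div_le_div_of_nonneg_right (div_le_div_of_nonneg_right hc.B_big (by linarith)) (by norm_num)
        _ = (c.B / L) * c.phi / (2 * 21) := by ring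
        _ ≤ (c.B / L) * c.phi / (2 * s) := by
            refine div_le_div_of_nonneg_left ?_ (by linarith) (by linarith)
            have := hc.B_pos; have := hc.phi_pos; positivity
        _ ≤ _ := by
            refine div_le_div_of_nonneg_right ?_ (by linarith)
            exact mul_le_mul hB (hφ hs21) hc.phi_pos.le hd0
    have : 0 ≤ c.C * e / L := by positivity
    have : c.C / 2 / L + 15 * c.C / L ≤ 16 * c.C / L := by
      rw [← add_div]; gcongr; linarith
    linarith

/-- The step for the lower bound. -/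
theorem step_lower (hc : c.Good) (hP : ∀ p ∈ P, p.Prime) (hD : 0 < D) (hz0 : c.z0 < z)
    (hL : c.L1 < Real.log D) (hlz : Real.log z ≤ 55/100 * Real.log D)
    (hs2 : 2 ≤ ell c P D z / Real.log z) :
    ∑ p ∈ stepSet c P z, wt P z p * (c.F (tauVal c P D p) - 1 + errTerm c (D / p) p)
      ≤ 1 - c.f (ell c P D z / Real.log z) + errTerm c D z := by
  obtain ⟨-, -, -, -, h8⟩ := hc.large _ hL
  have hlz2 : Real.log z ≤ 2 * Real.log D := by linarith
  obtain ⟨hlzp, -, -, hell, hd0, hd1⟩ := regime (P := P) hc hz0 hL hlz2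
  set δ := dlt c P D z with hδ
  set s := ell c P D z / Real.log z with hs
  set Φ : ℝ → ℝ := fun x => c.F (x + δ - 1) - 1 with hΦ
  have hanti : Antitone Φ := fun x y h => by
    simp only [hΦ]
    linarith [hc.F_anti (show x + δ - 1 ≤ y + δ - 1 by linarith)]
  have hΦ0 : ∀ x, 0 ≤ Φ x := fun x => by simp only [hΦ]; linarith [hc.F_gt (x + δ - 1)]
  have hC5 : 0 < c.C5 := (Real.exp_pos 25).trans_le hc.C5_big
  have hΦd : ∀ x, Φ x ≤ c.C5 * Real.exp (-5 * x) := fun x =>
    (hc.F_decay (x + δ)).trans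
      (mul_le_mul_of_nonneg_left (Real.exp_le_exp.2 (by linarith)) hC5.le)
  obtain ⟨T, hsT, hsum⟩ := sum_phi_le hc hP hz0 hL hlz2 hanti hΦ0 hΦd
  have hexp := sum_exp_le hc hP hz0 hL hlz2
  rw [← hs] at hsum
  have hterm : ∀ p ∈ stepSet c P z,
      wt P z p * (c.F (tauVal c P D p) - 1 + errTerm c (D / p) p)
        ≤ wt P z p * Φ (xval c P D z p)
          + 7 * c.C / Real.log D * (wt P z p * Real.exp (-(Real.log D / Real.log p))) := by
    intro p hp
    obtain ⟨-, hpz0, hpz⟩ := mem_filter.1 hp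
    have hp2 : 2 ≤ p := le_trans hc.z0_two hpz0.le
    have hu : Real.log p ≤ Real.log z := Real.log_le_log (by positivity) (by exact_mod_cast hpz.le)
    have h1 := shift_child (P := P) hc hD hz0 hL hlz2 hpz0 hpz (by linarith)
    have h2 : c.F (tauVal c P D p) - 1 ≤ Φ (xval c P D z p) := by
      simp only [hΦ]
      linarith [hc.F_anti (show xval c P D z p + δ - 1 ≤ tauVal c P D p by linarith)]
    have h3 := errTerm_child (c := c) hc hD hp2 (by linarith) (by linarith)
    have hw := wt_nonneg (z := z) hP p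
    calc _ ≤ wt P z p * (Φ (xval c P D z p)
          + 7 * c.C / Real.log D * Real.exp (-(Real.log D / Real.log p))) :=
          mul_le_mul_of_nonneg_left (by linarith) hw
      _ = _ := by ring
  refine (Finset.sum_le_sum hterm).trans ?_
  rw [Finset.sum_add_distrib, ← Finset.mul_sum]
  have hI : ∫ x in s..T, Φ x ≤ s * (1 - c.f s) - δ * (c.F (s + δ - 1) - 1) := by
    have e : ∫ x in s..T, Φ x = ∫ x in (s + δ)..(T + δ), (c.F (x - 1) - 1) :=
      intervalIntegral.integral_comp_add_right (fun x => c.F (x - 1) - 1) δ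
    rw [e, hc.F_int _ _ (by linarith) (by linarith)]
    have hanti' : Antitone (fun x => c.F (x - 1) - 1) := fun x y h => by
      linarith [hc.F_anti (show x - 1 ≤ y - 1 by linarith)]
    have hlow := intervalIntegral.integral_mono_on (show s ≤ s + δ by linarith)
      ((continuous_const (y := c.F (s + δ - 1) - 1)).intervalIntegrable (μ := MeasureTheory.volume) _ _)
      hanti'.intervalIntegrable (fun x hx => hanti' hx.2)
    rw [hc.F_int _ _ hs2 (by linarith), intervalIntegral.integral_const, smul_eq_mul,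
      add_sub_cancel_left] at hlow
    have hTf : 0 ≤ (T + δ) * (1 - c.f (T + δ)) :=
      mul_nonneg (by linarith) (by linarith [hc.f_lt (T + δ)])
    linarith
  have hI' := div_le_div_of_nonneg_right hI (show (0:ℝ) ≤ s by linarith)
  rw [sub_div, mul_div_cancel_left₀ _ (show s ≠ 0 by linarith)] at hI'
  have habs := absorb (P := P) hc hz0 hL hlz2 (φ := c.F (s + δ - 1) - 1)
    (by linarith [hc.F_gt (s + δ - 1)]) (fun hs21 => by
      linarith [hc.phi_F, hc.F_anti (show s + δ - 1 ≤ 22 by linarith)])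
  rw [← hs, ← hδ] at habs
  have hmarg : δ * (c.F (s + δ - 1) - 1) / (2 * s) ≤ δ * (c.F (s + δ - 1) - 1) / s := by
    refine div_le_div_of_nonneg_left ?_ (by linarith) (by linarith)
    exact mul_nonneg hd0 (by linarith [hc.F_gt (s + δ - 1)])
  have h7 := mul_le_mul_of_nonneg_left hexp
    (show 0 ≤ 7 * c.C / Real.log D by have := hc.C_pos; positivity)
  linarith

open Classical in
/-- The term attached to `p` in the upper step. -/
noncomputable def upperTerm (c : Cst) (P : Finset ℕ) (D : ℝ) (p : ℕ) : ℝ :=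
  if 3 * Real.log p < Real.log D ∧ 2 ≤ tauVal c P D p then
    1 - c.f (tauVal c P D p) + errTerm c (D / p) p
  else 1

/-- The step for the upper bound. -/
theorem step_upper (hc : c.Good) (hP : ∀ p ∈ P, p.Prime) (hD : 0 < D) (hz0 : c.z0 < z)
    (hL : c.L1 < Real.log D) (hlz : Real.log z ≤ 2 * Real.log D) :
    ∑ p ∈ stepSet c P z, wt P z p * upperTerm c P D p
      ≤ c.F (ell c P D z / Real.log z) - 1 + errTerm c D z := by
  obtain ⟨-, -, -, -, h8⟩ := hc.large _ hL
  obtain ⟨hlzp, -, hdef, hell, hd0, hd1⟩ := regime (P := P) hc hz0 hL hlz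
  rw [abs_le] at hell
  have hgd : 0 ≤ deficit P z := deficit_nonneg z
  set L := Real.log D with hLdef
  set δ := dlt c P D z with hδ
  set s := ell c P D z / Real.log z with hs
  have hs49 : 49/100 ≤ s := by rw [le_div_iff₀ hlzp]; linarith
  set ε := 15 * c.γ * deficit P z / L with hε
  have hg0 := hc.γ_pos
  have hε0 : 0 ≤ ε := by positivity
  have hε1 : ε ≤ 1 := by
    rw [hε, div_le_one (by linarith)]
    nlinarith [hc.γ_small, mul_le_mul_of_nonneg_left hdef hg0.le]
  set Φ : ℝ → ℝ := fun x => if x + δ ≤ 3 + ε then 1 else 1 - c.f (x + δ - 1) with hΦ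
  have hge : ∀ x, 1 - c.f (x + δ - 1) ≤ Φ x := fun x => by
    simp only [hΦ]; split_ifs
    · linarith [hc.f_nonneg (x + δ - 1)]
    · exact le_rfl
  have hanti : Antitone Φ := by
    intro x y h
    simp only [hΦ]
    split_ifs with h1 h2
    · exact le_rfl
    · linarith
    · linarith [hc.f_nonneg (y + δ - 1)]
    · linarith [hc.f_mono (show x + δ - 1 ≤ y + δ - 1 by linarith)]
  have hΦ0 : ∀ x, 0 ≤ Φ x := fun x => le_trans (by linarith [hc.f_lt (x + δ - 1)]) (hge x)
  have hC5 : 0 < c.C5 := (Real.exp_pos 25).trans_le hc.C5_big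
  have hΦd : ∀ x, Φ x ≤ c.C5 * Real.exp (-5 * x) := fun x => by
    simp only [hΦ]; split_ifs with h
    · calc (1:ℝ) ≤ Real.exp (25 + -5 * x) := Real.one_le_exp (by linarith)
        _ = Real.exp 25 * Real.exp (-5 * x) := Real.exp_add _ _
        _ ≤ _ := mul_le_mul_of_nonneg_right hc.C5_big (Real.exp_pos _).le
    · exact (hc.f_decay (x + δ)).trans
        (mul_le_mul_of_nonneg_left (Real.exp_le_exp.2 (by linarith)) hC5.le)
  obtain ⟨T, hsT, hsum⟩ := sum_phi_le hc hP hz0 hL hlz hanti hΦ0 hΦd
  have hexp := sum_exp_le hc hP hz0 hL hlz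
  rw [← hs, ← hLdef] at hsum
  rw [← hLdef] at hexp
  have hC7 : 0 ≤ 7 * c.C / L := by have := hc.C_pos; positivity
  have hterm : ∀ p ∈ stepSet c P z, wt P z p * upperTerm c P D p
        ≤ wt P z p * Φ (xval c P D z p)
          + 7 * c.C / L * (wt P z p * Real.exp (-(L / Real.log p))) := by
    intro p hp
    obtain ⟨-, hpz0, hpz⟩ := mem_filter.1 hp
    have hp2 : 2 ≤ p := le_trans hc.z0_two hpz0.le
    have hw := wt_nonneg (z := z) hP p
    have hex : 0 ≤ 7 * c.C / L * Real.exp (-(L / Real.log p)) :=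
      mul_nonneg hC7 (Real.exp_pos _).le
    suffices h : upperTerm c P D p
        ≤ Φ (xval c P D z p) + 7 * c.C / L * Real.exp (-(L / Real.log p)) by
      calc _ ≤ wt P z p * (Φ (xval c P D z p) + 7 * c.C / L * Real.exp (-(L / Real.log p))) :=
            mul_le_mul_of_nonneg_left h hw
        _ = _ := by ring
    unfold upperTerm
    split_ifs with h
    · obtain ⟨h3, -⟩ := h
      have h1 := shift_child (P := P) hc hD hz0 hL hlz hpz0 hpz
        (by linarith [Real.log_natCast_nonneg p])
      have h2 := hge (xval c P D z p)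
      have h4 := hc.f_mono (show xval c P D z p + δ - 1 ≤ tauVal c P D p by linarith)
      have h5 := errTerm_child (c := c) hc hD hp2 (by linarith)
        (by linarith [Real.log_natCast_nonneg p])
      linarith
    · have hone : Φ (xval c P D z p) = 1 := by
        simp only [hΦ]
        rw [if_pos]
        by_cases h3 : 3 * Real.log p < L
        · have ht : tauVal c P D p < 2 := not_le.1 (fun h2 => h ⟨h3, h2⟩)
          have h1 := shift_child (P := P) hc hD hz0 hL hlz hpz0 hpz
            (by linarith [Real.log_natCast_nonneg p])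
          linarith
        · exact shift_large_prime (P := P) hc hz0 hL hlz hpz0 hpz (not_lt.1 h3)
      linarith
  refine (Finset.sum_le_sum hterm).trans ?_
  rw [Finset.sum_add_distrib, ← Finset.mul_sum]
  have hanti' : Antitone (fun x => 1 - c.f (x - 1)) := fun x y h => by
    linarith [hc.f_mono (show x - 1 ≤ y - 1 by linarith)]
  set φ := 1 - c.f (s + δ - 1) with hφ
  have hφ0 : 0 ≤ φ := by linarith [hc.f_lt (s + δ - 1)]
  have hTf : 0 ≤ (T + δ) * (c.F (T + δ) - 1) :=
    mul_nonneg (by linarith) (by linarith [hc.F_gt (T + δ)])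
  have hbase : ∫ x in s..T, (1 - c.f (x + δ - 1)) ≤ s * (c.F s - 1) - δ * φ := by
    have e : ∫ x in s..T, (1 - c.f (x + δ - 1))
        = ∫ x in (s + δ)..(T + δ), (1 - c.f (x - 1)) :=
      intervalIntegral.integral_comp_add_right (fun x => 1 - c.f (x - 1)) δ
    rw [e, hc.f_int _ _ (by linarith) (by linarith)]
    have hlow := intervalIntegral.integral_mono_on (show s ≤ s + δ by linarith)
      ((continuous_const (y := φ)).intervalIntegrable (μ := MeasureTheory.volume) _ _)
      hanti'.intervalIntegrable (fun x hx => hanti' hx.2)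
    rw [hc.f_int _ _ (by linarith) (by linarith), intervalIntegral.integral_const, smul_eq_mul,
      add_sub_cancel_left] at hlow
    linarith
  have hI : ∫ x in s..T, Φ x ≤ s * (c.F s - 1) - δ * φ / 2 := by
    have hanti2 : Antitone (fun x => 1 - c.f (x + δ - 1)) := fun x y h => by
      linarith [hc.f_mono (show x + δ - 1 ≤ y + δ - 1 by linarith)]
    have hhalf : 0 ≤ δ * φ := mul_nonneg hd0 hφ0
    by_cases hwin : s + δ ≤ 3 + ε
    · set g : ℝ → ℝ := fun x => (Set.Ioc (3 - δ) (3 + ε - δ)).indicator (fun _ => c.A * ε) x with hg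
      have hgint : IntervalIntegrable g MeasureTheory.volume s T :=
        ⟨(MeasureTheory.integrableOn_const (by simp)).indicator measurableSet_Ioc,
          (MeasureTheory.integrableOn_const (by simp)).indicator measurableSet_Ioc⟩
      have hpt : ∀ x ∈ Set.Icc s T, Φ x ≤ (1 - c.f (x + δ - 1)) + g x := by
        intro x _
        simp only [hΦ, hg, Set.indicator, Set.mem_Ioc]
        split_ifs with h1 h2
        · have := hc.f_mono (show x + δ - 1 ≤ 2 + ε by linarith)
          linarith [(hc.f_near ε hε0 hε1).2]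
        · rw [hc.f_zero _ (by
            by_contra hcon
            exact h2 ⟨by linarith, by linarith⟩)]
          linarith
        · linarith
        · linarith
      have h1 := intervalIntegral.integral_mono_on hsT hanti.intervalIntegrable
        (hanti2.intervalIntegrable.add hgint) hpt
      rw [intervalIntegral.integral_add hanti2.intervalIntegrable hgint] at h1
      have h2 : ∫ x in s..T, g x ≤ c.A * ε * ε := by
        rw [intervalIntegral.integral_of_le hsT, hg,
          MeasureTheory.setIntegral_indicator measurableSet_Ioc, MeasureTheory.setIntegral_const,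
          smul_eq_mul, Set.Ioc_inter_Ioc, Real.volume_real_Ioc]
        calc max (min T (3 + ε - δ) - max s (3 - δ)) 0 * (c.A * ε) ≤ ε * (c.A * ε) := by
              refine mul_le_mul_of_nonneg_right (max_le ?_ hε0) (mul_nonneg hc.A_pos.le hε0)
              linarith [min_le_right T (3 + ε - δ), le_max_right s (3 - δ)]
          _ = _ := by ring
      have h3 : c.A * ε * ε ≤ δ * φ / 2 := by
        have hphi : c.phi ≤ φ := by
          linarith [hc.phi_f, hc.f_mono (show s + δ - 1 ≤ 22 by linarith)]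
        have hδ' : c.γ * deficit P z ^ 2 / (2 * L ^ 2) ≤ δ := by
          rw [hδ, dlt, ← hLdef]
          have : 0 ≤ c.B / L := div_nonneg hc.B_pos.le (by linarith)
          linarith
        calc c.A * ε * ε = (900 * c.A * c.γ) * (c.γ * deficit P z ^ 2 / (2 * L ^ 2)) / 2 := by
              rw [hε]; ring
          _ ≤ c.phi * (c.γ * deficit P z ^ 2 / (2 * L ^ 2)) / 2 := by
              gcongr; exact hc.γ_A
          _ ≤ φ * δ / 2 := by
              refine div_le_div_of_nonneg_right ?_ zero_le_two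
              exact mul_le_mul hphi hδ' (by positivity) hφ0
          _ = _ := by ring
      linarith
    · have h1 : ∫ x in s..T, Φ x = ∫ x in s..T, (1 - c.f (x + δ - 1)) := by
        refine intervalIntegral.integral_congr (fun x hx => ?_)
        rw [Set.uIcc_of_le hsT] at hx
        simp only [hΦ]
        rw [if_neg (by linarith [hx.1])]
      linarith
  have hI' := div_le_div_of_nonneg_right hI (show (0:ℝ) ≤ s by linarith)
  rw [sub_div, mul_div_cancel_left₀ _ (show s ≠ 0 by linarith), div_div] at hI'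
  have habs := absorb (P := P) hc hz0 hL hlz (φ := φ) hφ0 (fun hs21 => by
    linarith [hc.phi_f, hc.f_mono (show s + δ - 1 ≤ 22 by linarith)])
  rw [← hLdef, ← hs, ← hδ] at habs
  have h7 := mul_le_mul_of_nonneg_left hexp hC7
  linarith

end Vale.Agent.P013
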